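import Crest.Agent.X212.Tor74.Cnt

/-! Toric counts, part 4: Fredholm families `D + compact` over the sphere. -/

set_option autoImplicit false
set_option linter.unusedSectionVars false

noncomputable section

open Set Filter Topology Function Module
open scoped ContDiff InnerProductSpace ComplexConjugate

namespace Crest.Agent.X212.Tor74

open Slc61 Fred93

variable {E V W : Type} [NormedAddCommGroup E] [InnerProductSpace ℂ E] [NormedSpace ℝ E]
  [IsScalarTower ℝ ℂ E] [FiniteDimensional ℂ E]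
  [NormedAddCommGroup V] [NormedSpace ℂ V] [NormedSpace ℝ V] [IsScalarTower ℝ ℂ V]
  [NormedAddCommGroup W] [NormedSpace ℂ W] [NormedSpace ℝ W] [IsScalarTower ℝ ℂ W]

section lin
variable {ι κ : Type} [Fintype ι] [Fintype κ] (a : ι → ℤ) (b : κ → ℤ)

open Classical in
/-- the universal family as a family of operators -/
def ThL (p : κ → Λ E → ι → ℂ) (u : E) : (ι → ℂ) →L[ℂ] κ → ℂ :=
  ∑ k, ∑ l, ∑ i, (p k l i * mon (b k - a i) (co l u)) •
    (ContinuousLinearMap.single ℂ (fun _ => ℂ) k).comp (ContinuousLinearMap.proj i)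

theorem ThL_apply (p : κ → Λ E → ι → ℂ) (u : E) (v : ι → ℂ) :
    ThL a b p u v = Th a (fun k => some (b k)) p (u, v) := by
  classical
  funext k
  simp only [ThL, _root_.sum_apply, Finset.sum_apply, Th, bas]
  rw [Finset.sum_eq_single k (fun k' _ h => by simp [Pi.single_eq_of_ne h.symm]) (by simp)]
  simp [mul_assoc]

theorem ThL_sm : ContDiff ℝ ∞ fun z : (κ → Λ E → ι → ℂ) × E => ThL a b z.1 z.2 :=
  ContDiff.sum fun k _ => ContDiff.sum fun l _ => ContDiff.sum fun i _ =>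
    ((by fun_prop : ContDiff ℝ ∞ fun z : (κ → Λ E → ι → ℂ) × E => z.1 k l i).mul
      ((mon_sm _).comp ((co_sm l).comp contDiff_snd))).smul contDiff_const

theorem ThL_eqv (p : κ → Λ E → ι → ℂ) (α : Circle) (u : E) (v : ι → ℂ) :
    ThL a b p ((α : ℂ) • u) ((wr a).ρ α v) = (wr b).ρ α (ThL a b p u v) := by
  funext k
  have := (Th_adm a (fun k => some (b k)) p).2 (α, 1) (u, v) k
  simpa [ThL_apply, Rep.ac, ch, wrep_apply] using this

end lin

theorem cpt_fin {A : Type} [NormedAddCommGroup A] [NormedSpace ℂ A] [FiniteDimensional ℂ A]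
    (L : V →L[ℂ] A) : IsCompactOperator L := by
  have := FiniteDimensional.proper ℂ A
  exact isCompactOperator_of_locallyCompactSpace_dom L

theorem fr_of_partial [FiniteDimensional ℝ E] {L : (E × V) × ℝ →L[ℝ] W} {S : V →L[ℝ] W} {n : ℤ}
    (hS : Fr S n) (h : ∀ v, L ((0, v), 0) = S v) : Fr L (n + finrank ℝ E + 1) := by
  let M : E × ℝ →L[ℝ] W := L.comp ((ContinuousLinearMap.inl ℝ E V).prodMap (.id ℝ ℝ))
  let e : ((E × V) × ℝ) ≃L[ℝ] V × (E × ℝ) :=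
    ((ContinuousLinearEquiv.prodComm ℝ E V).prodCongr (.refl ℝ ℝ)).trans
      (ContinuousLinearEquiv.prodAssoc ℝ V E ℝ)
  refine (((hS.coprod M).comp (Fr.equiv e)).congr fun x => ?_).cast (by simp; ring)
  change L x = S x.1.2 + L ((x.1.1, 0), x.2)
  rw [← h, ← map_add]
  simp

variable [CompleteSpace V] [CompleteSpace W]

section fam
variable {X : Type} [MetricSpace X] {K : Set X} {S : X → V →L[ℂ] W}

theorem fam_subseq (hK : IsCompact K) (hc : ContinuousOn S K) (hF : ∀ x ∈ K, (S x).IsFredholm)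
    {x : ℕ → X} (hx : ∀ n, x n ∈ K) {v : ℕ → V} (hv : ∀ n, ‖v n‖ = 1) {y : W}
    (hy : Tendsto (fun n => S (x n) (v n)) atTop (𝓝 y)) :
    ∃ x₀ ∈ K, ∃ (v₀ : V) (φ : ℕ → ℕ), StrictMono φ ∧ Tendsto (x ∘ φ) atTop (𝓝 x₀) ∧
      Tendsto (v ∘ φ) atTop (𝓝 v₀) ∧ S x₀ v₀ = y := by
  obtain ⟨x₀, h0, φ, hφ, hl⟩ := hK.tendsto_subseq hx
  have h1 : Tendsto (fun n => S (x (φ n))) atTop (𝓝 (S x₀)) :=
    (hc x₀ h0).tendsto.comp (tendsto_nhdsWithin_iff.2 ⟨hl, Eventually.of_forall fun n => hx _⟩)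
  have h2 : Tendsto (fun n => (S x₀ - S (x (φ n))) (v (φ n))) atTop (𝓝 0) := by
    refine squeeze_zero_norm (a := fun n => ‖S x₀ - S (x (φ n))‖) (fun n => ?_) ?_
    · simpa [hv] using (S x₀ - S (x (φ n))).le_opNorm (v (φ n))
    · simpa using ((tendsto_const_nhds (x := S x₀)).sub h1).norm
  have h3 : Tendsto (fun n => S x₀ (v (φ n))) atTop (𝓝 y) := by
    simpa using h2.add (hy.comp hφ.tendsto_atTop)
  obtain ⟨π, C, -, -, hE⟩ := exists_est (hF x₀ h0)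
  have := (hF x₀ h0).finite_ker
  have := FiniteDimensional.proper ℂ (S x₀).ker
  obtain ⟨v₀, ψ, hψ, h4, h5⟩ := hE.subseq (isCompactOperator_of_locallyCompactSpace_dom π)
    (x := fun n => v (φ n)) (fun n => (hv _).le) h3
  exact ⟨x₀, h0, v₀, φ ∘ ψ, hφ.comp hψ, hl.comp hψ.tendsto_atTop, h4, h5⟩

theorem fam_coker (hK : IsCompact K) (hc : ContinuousOn S K) (hF : ∀ x ∈ K, (S x).IsFredholm) :
    ∃ A : Finset W, ∀ x ∈ K, ∀ y, ∃ v, y - S x v ∈ Submodule.span ℂ (A : Set W) := by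
  classical
  refine hK.induction_on (p := fun s => ∃ A : Finset W, ∀ x ∈ s, ∀ y, ∃ v,
    y - S x v ∈ Submodule.span ℂ (A : Set W)) ⟨∅, by simp⟩
    (fun s t h ⟨A, hA⟩ => ⟨A, fun x hx => hA x (h hx)⟩) ?_ fun x hx => ?_
  · rintro s t ⟨A, hA⟩ ⟨B, hB⟩
    refine ⟨A ∪ B, fun x hx y => hx.elim (fun h => (hA x h y).imp fun v hv => ?_)
      fun h => (hB x h y).imp fun v hv => ?_⟩ <;> exact Submodule.span_mono (by simp) hv
  · obtain ⟨-, Q, _, -, -, hQ, -⟩ := exists_block (hF x hx)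
    obtain ⟨A, hA⟩ := (Submodule.fg_iff_finiteDimensional Q).2 inferInstance
    have := FiniteDimensional.complete ℂ Q
    let L : X → V × Q →L[ℝ] W := fun x => ((S x).comp (.fst ℂ V Q) +
      Q.subtypeL.comp (.snd ℂ V Q)).restrictScalars ℝ
    have hL : ContinuousOn L K := (ContinuousLinearMap.restrictScalarsL ℂ (V × Q) W ℝ ℝ).continuous
      |>.comp_continuousOn ((hc.clm_comp continuousOn_const).add continuousOn_const)
    have h1 : Surjective (L x) := fun y => by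
      obtain ⟨_, ⟨v, rfl⟩, q, hq, h⟩ := Submodule.mem_sup.1
        (hQ.sup_eq_top ▸ Submodule.mem_top : y ∈ (S x).range ⊔ Q)
      exact ⟨(v, ⟨q, hq⟩), h⟩
    refine ⟨_, (hL x hx).preimage_mem_nhdsWithin (Sard93.isOpen_surj.mem_nhds h1), A,
      fun x' hx' y => ?_⟩
    obtain ⟨⟨v, q⟩, h⟩ := hx' y
    refine ⟨v, ?_⟩
    rw [hA, ← h]
    simp [L]

theorem fam_ker (hK : IsCompact K) (hc : ContinuousOn S K) (hF : ∀ x ∈ K, (S x).IsFredholm)
    (Q : Submodule ℂ W) [FiniteDimensional ℂ Q] :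
    IsCompact {z : X × V | z.1 ∈ K ∧ ‖z.2‖ = 1 ∧ S z.1 z.2 ∈ Q} := by
  refine IsSeqCompact.isCompact fun z hz => ?_
  obtain ⟨C, hC⟩ := (hK.image_of_continuousOn hc).isBounded.exists_norm_le
  have := FiniteDimensional.proper ℂ Q
  obtain ⟨q, -, φ, hφ, hq⟩ := (isCompact_closedBall (0 : Q) C).tendsto_subseq
    (x := fun n => ⟨S (z n).1 (z n).2, (hz n).2.2⟩) fun n => by
      rw [mem_closedBall_zero_iff]
      refine ((S (z n).1).le_opNorm _).trans ?_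
      rw [(hz n).2.1, mul_one]
      exact hC _ ⟨_, (hz n).1, rfl⟩
  obtain ⟨x₀, h0, v₀, ψ, hψ, h1, h2, h3⟩ := fam_subseq hK hc hF (x := fun n => (z (φ n)).1)
    (fun n => (hz _).1) (v := fun n => (z (φ n)).2) (fun n => (hz _).2.1)
    ((continuous_subtype_val.tendsto q).comp hq)
  refine ⟨(x₀, v₀), ⟨h0, ?_, h3 ▸ q.2⟩, φ ∘ ψ, hφ.comp hψ, h1.prodMk_nhds h2⟩
  exact isClosed_singleton.mem_of_tendsto h2.norm (Eventually.of_forall fun n => (hz _).2.1)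

end fam

variable [CompleteSpace E] [SecondCountableTopology E] [ProperSpace E] [FiniteDimensional ℝ E]
  [SecondCountableTopology V]

/-- invariance for two families `D + compact` -/
theorem inv_ban (R : Rep V) (R' : Rep W)
    (hW : ∀ A : Finset W, ∃ (J : Type) (_ : Fintype J) (c : J → ℤ) (σ : (J → ℂ) →L[ℂ] W),
      (∀ α w, σ ((wr c).ρ α w) = R'.ρ α (σ w)) ∧ ∀ y ∈ A, y ∈ σ.range)
    (hV : ∀ v : V, v ≠ 0 → ∃ l : ℤ × (V →L[ℂ] ℂ),
      (∀ α v', l.2 (R.ρ α v') = (α : ℂ) ^ l.1 * l.2 v') ∧ l.2 v ≠ 0)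
    {D : V →L[ℂ] W} (hD : D.IsFredholm) (hDr : Fr (D.restrictScalars ℝ) (4 - finrank ℝ E))
    {O : Set E} (hO : IsOpen O) (hs : ∀ u, ‖u‖ = 1 → u ∈ O) (T : Bool → E → V →L[ℂ] W)
    (hT : ∀ i, ContDiffOn ℝ ∞ (T i) O)
    (he : ∀ i (α : Circle) u v, ‖u‖ = 1 → T i ((α : ℂ) • u) (R.ρ α v) = R'.ρ α (T i u v))
    (hK : ∀ i u, ‖u‖ = 1 → IsCompactOperator (T i u - D)) (hr : ∀ i, Rg fun x : E × V => T i x.1 x.2) :
    R.Fi (fun x : E × V => T false x.1 x.2) ∧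
      R.N (fun x : E × V => T false x.1 x.2) ≡ R.N (fun x : E × V => T true x.1 x.2) [MOD 2] := by
  classical
  let S₀ : E × ℝ → V →L[ℂ] W := fun x => (1 - x.2) • T false x.1 + x.2 • T true x.1
  let K : Set (E × ℝ) := Metric.sphere 0 1 ×ˢ Icc 0 1
  have hKc : IsCompact K := (isCompact_sphere 0 1).prod isCompact_Icc
  have hKn : ∀ x ∈ K, ‖x.1‖ = 1 := fun x hx => by simpa using hx.1
  have sm0 : ContDiffOn ℝ ∞ S₀ {x | x.1 ∈ O} :=
    ((contDiff_const.sub contDiff_snd).contDiffOn.smul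
      ((hT _).comp contDiffOn_fst fun _ h => h)).add
      (contDiffOn_snd.smul ((hT _).comp contDiffOn_fst fun _ h => h))
  have c0 : ContinuousOn S₀ K := sm0.continuousOn.mono fun x hx => hs _ (hKn x hx)
  have k0 : ∀ x : E × ℝ, ‖x.1‖ = 1 → IsCompactOperator (S₀ x - D) := fun x hx => by
    have : S₀ x - D = (1 - x.2) • (T false x.1 - D) + x.2 • (T true x.1 - D) := by
      simp only [S₀]; module
    rw [this]
    exact ((hK _ _ hx).smul (1 - x.2)).add ((hK _ _ hx).smul x.2)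
  have f0 : ∀ x ∈ K, (S₀ x).IsFredholm := fun x hx =>
    ((Fr.of hD).of_sub_compact (k0 x (hKn x hx))).1
  obtain ⟨A, hA⟩ := fam_coker hKc c0 f0
  obtain ⟨J, _, c, σ, hσ, hAσ⟩ := hW A
  have hB := fam_ker hKc c0 f0 σ.range
  obtain ⟨t, ht⟩ := hB.elim_finite_subcover
    (ι := {l : ℤ × (V →L[ℂ] ℂ) // ∀ α v', l.2 (R.ρ α v') = (α : ℂ) ^ l.1 * l.2 v'})
    (fun l => {z | l.1.2 z.2 ≠ 0}) (fun l => isOpen_ne_fun (by fun_prop) continuous_const)
    fun z hz => by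
      obtain ⟨l, h1, h2⟩ := hV z.2 (ne_of_norm hz.2.1)
      exact mem_iUnion.2 ⟨⟨l, h1⟩, h2⟩
  let d : t → ℤ := fun j => j.1.1.1
  let π : V →L[ℂ] t → ℂ := .pi fun j => j.1.1.2
  have hπ : ∀ α v, π (R.ρ α v) = (wr d).ρ α (π v) := fun α v => funext fun j => j.1.2 α v
  have hπ0 : ∀ x ∈ K, ∀ v, v ≠ 0 → S₀ x v ∈ σ.range → π v ≠ 0 := fun x hx v hv h => by
    have hn : ((‖v‖⁻¹ : ℝ) : ℂ) ≠ 0 := Complex.ofReal_ne_zero.2 (inv_ne_zero (norm_ne_zero_iff.2 hv))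
    obtain ⟨l, hl, h1⟩ := mem_iUnion₂.1 (ht (a := (x, ((‖v‖⁻¹ : ℝ) : ℂ) • v)) ⟨hx, by
      rw [norm_smul, Complex.norm_real, norm_inv, norm_norm,
        inv_mul_cancel₀ (norm_ne_zero_iff.2 hv)], by
      rw [map_smul]; exact Submodule.smul_mem _ _ h⟩)
    exact fun h2 => h1 (by rw [map_smul, show l.1.2 v = 0 from congrFun h2 ⟨l, hl⟩, smul_zero])
  let S : (J → Λ E → t → ℂ) × (E × ℝ) → V →L[ℂ] W := fun z =>
    S₀ z.2 + (z.2.2 * (1 - z.2.2)) • σ.comp ((ThL d c z.1 z.2.1).comp π)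
  have sm1 : ContDiffOn ℝ ∞ S {z | z.2.1 ∈ O} := by
    have t1 : ContDiff ℝ ∞ fun z : (J → Λ E → t → ℂ) × (E × ℝ) => z.2.2 := by fun_prop
    have t2 : ContDiff ℝ ∞ fun z : (J → Λ E → t → ℂ) × (E × ℝ) => ThL d c z.1 z.2.1 :=
      (ThL_sm d c).comp (f := fun z : (J → Λ E → t → ℂ) × (E × ℝ) => (z.1, z.2.1)) (by fun_prop)
    let M : ((t → ℂ) →L[ℂ] J → ℂ) →L[ℂ] V →L[ℂ] W :=
      (ContinuousLinearMap.compL ℂ V (J → ℂ) W σ).comp
        ((ContinuousLinearMap.compL ℂ V (t → ℂ) (J → ℂ)).flip π)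
    exact (sm0.comp contDiffOn_snd fun _ h => h).add ((t1.mul (contDiff_const.sub t1)).smul
      ((M.restrictScalars ℝ).contDiff.comp t2)).contDiffOn
  have k1 : ∀ z : (J → Λ E → t → ℂ) × (E × ℝ), ‖z.2.1‖ = 1 → IsCompactOperator (S z - D) :=
    fun z hz => by
      rw [show S z - D = (S₀ z.2 - D) + (z.2.2 * (1 - z.2.2)) • σ.comp ((ThL d c z.1 z.2.1).comp π)
        by simp only [S]; abel]
      exact (k0 _ hz).add (((cpt_fin _).clm_comp σ).smul (z.2.2 * (1 - z.2.2)))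
  let G : ((E × V) × ℝ) × (J → Λ E → t → ℂ) → W := fun z => S (z.2, z.1.1.1, z.1.2) z.1.1.2
  have hO' : IsOpen {x : E × V | x.1 ∈ O} := hO.preimage continuous_fst
  have hG : ContDiffOn ℝ ∞ G {z | z.1.1 ∈ {x : E × V | x.1 ∈ O}} :=
    ((ContinuousLinearMap.restrictScalarsL ℂ V W ℝ ℝ).contDiff.comp_contDiffOn (sm1.comp
      (f := fun z : ((E × V) × ℝ) × (J → Λ E → t → ℂ) => (z.2, z.1.1.1, z.1.2)) (by fun_prop)
      fun _ h => h)).clm_apply (by fun_prop)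
  have hd : ∀ z : ((E × V) × ℝ) × (J → Λ E → t → ℂ), ‖z.1.1.1‖ = 1 → DifferentiableAt ℝ G z :=
    fun z hz => (hG.contDiffAt ((hO'.preimage (by fun_prop)).mem_nhds (hs _ hz))).differentiableAt
      (by simp)
  have := inv R (G := G) hO' (fun x hx _ => hs _ hx) hG (fun p g x hx => ?_)
    (fun p x hx _ => ?_) (fun p x hx ht w => ?_) (F₀ := fun x => T false x.1 x.2)
    (F₁ := fun x => T true x.1 x.2) (fun x p => by simp [G, S, S₀]) (fun x p => by simp [G, S, S₀])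
    (hr _) (hr _) fun p x hx ht hv => ?_
  · exact ⟨this.1, this.2.2⟩
  · have h1 : G ((R.ac g x.1, x.2), p) = (g.2 : ℂ) • R'.ρ g.1 (G (x, p)) := by
      simp only [G, S, S₀, Rep.ac, map_smul, _root_.add_apply,
        _root_.smul_apply, ContinuousLinearMap.comp_apply, he _ _ _ _ hx.1, hπ, ThL_eqv,
        hσ, map_add, ContinuousLinearMap.map_smul_of_tower, smul_add, smul_comm (g.2 : ℂ)]
    rw [h1, show G (x, p) = 0 from hx.2.2, map_zero, smul_zero]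
  · have h1 : Fr ((S (p, x.1.1, x.2)).restrictScalars ℝ) (4 - finrank ℝ E) :=
      hDr.of_sub_compact (k1 (p, x.1.1, x.2) hx.1)
    refine (fr_of_partial h1 fun v => fderiv_affine (G := fun y => G (y, p))
      (DifferentiableAt.comp x (f := fun y => (y, p)) (hd (x, p) hx.1) (by fun_prop))
      fun s => ?_).cast (by ring)
    simp [G]
  · have hx' : (x.1.1, x.2) ∈ K := ⟨by simpa using hx.1, Ioo_subset_Icc_self ht⟩
    have hc : x.2 * (1 - x.2) ≠ 0 := mul_ne_zero ht.1.ne' (sub_pos.2 ht.2).ne'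
    have h1 : π x.1.2 ≠ 0 := hπ0 _ hx' _ hx.2.1 (by
      have h2 : S₀ (x.1.1, x.2) x.1.2 + (x.2 * (1 - x.2)) • σ (ThL d c p x.1.1 (π x.1.2)) = 0 :=
        hx.2.2
      rw [eq_neg_of_add_eq_zero_left h2]
      exact neg_mem (Submodule.smul_of_tower_mem _ _ ⟨_, rfl⟩))
    obtain ⟨v, hv⟩ := hA _ hx' w
    obtain ⟨y, hy⟩ := (Submodule.span_le.2 hAσ : _ ≤ σ.range) hv
    obtain ⟨q, hq⟩ := Th_surj d (fun k => some (c k)) (x := (x.1.1, π x.1.2)) (ne_of_norm hx.1) h1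
      ((x.2 * (1 - x.2))⁻¹ • y - ThL d c p x.1.1 (π v))
    have h3 : fderiv ℝ G (x, p) (((0, v), 0), 0) = S (p, x.1.1, x.2) v :=
      fderiv_affine (hd (x, p) hx.1) fun s => by simp [G]
    have h4 : fderiv ℝ G (x, p) (0, q) =
        (x.2 * (1 - x.2)) • σ (Th d (fun k => some (c k)) q (x.1.1, π x.1.2)) :=
      fderiv_affine (hd (x, p) hx.1) fun s => by
        simp only [G, S, Prod.smul_mk, smul_zero, Prod.mk_add_mk, add_zero,
          _root_.add_apply, _root_.smul_apply,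
          ContinuousLinearMap.comp_apply, ThL_apply, Th_add, map_add,
          ContinuousLinearMap.map_smul_of_tower]
        module
    refine ⟨v, q, ?_⟩
    rw [show ((((0 : E), v), (0 : ℝ)), q) = (((0, v), 0), 0) + (0, q) by simp, map_add, h3, h4, hq,
      map_sub, ContinuousLinearMap.map_smul_of_tower, smul_sub, smul_inv_smul₀ hc,
      show σ y = _ from hy]
    simp [S]
  · have c1 : ContinuousOn (fun y => S (p, y)) K :=
      sm1.continuousOn.comp (by fun_prop) fun y hy => hs _ (hKn y hy)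
    obtain ⟨x₀, -, v₀, φ, hφ, h1, h2, h3⟩ := fam_subseq hKc c1
      (fun y hy => ((Fr.of hD).of_sub_compact (k1 (p, y) (hKn y hy))).1)
      (x := fun n => ((x n).1.1, (x n).2)) (fun n => ⟨by simpa using (hx n).1, ht n⟩) hv (y := 0)
      (tendsto_const_nhds.congr fun n => (hx n).2.2.symm)
    exact ⟨φ, ((x₀.1, v₀), x₀.2), hφ, h3,
      (((continuous_fst.tendsto _).comp h1).prodMk_nhds h2).prodMk_nhds
        ((continuous_snd.tendsto _).comp h1)⟩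

/-- the count, given a block decomposition of `D` -/
theorem count_abs (R : Rep V) (R' : Rep W)
    (hW : ∀ A : Finset W, ∃ (J : Type) (_ : Fintype J) (c : J → ℤ) (σ : (J → ℂ) →L[ℂ] W),
      (∀ α w, σ ((wr c).ρ α w) = R'.ρ α (σ w)) ∧ ∀ y ∈ A, y ∈ σ.range)
    (hV : ∀ v : V, v ≠ 0 → ∃ l : ℤ × (V →L[ℂ] ℂ),
      (∀ α v', l.2 (R.ρ α v') = (α : ℂ) ^ l.1 * l.2 v') ∧ l.2 v ≠ 0)
    {ι κ : Type} [Fintype ι] [Fintype κ] (a : ι → ℤ) (b : κ → ℤ) {D : V →L[ℂ] W}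
    {π : V →L[ℂ] ι → ℂ} {s : (ι → ℂ) →L[ℂ] V} {σ : (κ → ℂ) →L[ℂ] W}
    (p1 : ∀ c, π (s c) = c) (p2 : ∀ c, D (s c) = 0)
    (p3 : ∀ v w, D v + σ w = 0 → w = 0 ∧ s (π v) = v) (p4 : ∀ y, ∃ v w, D v + σ w = y ∧ π v = 0)
    (q1 : ∀ α v, π (R.ρ α v) = (wr a).ρ α (π v)) (q2 : ∀ α c, s ((wr a).ρ α c) = R.ρ α (s c))
    (q3 : ∀ α w, σ ((wr b).ρ α w) = R'.ρ α (σ w)) (q4 : ∀ α v, D (R.ρ α v) = R'.ρ α (D v))
    {m : ℕ} (hm : finrank ℂ E = m + 1) (hd : Fintype.card κ + 1 = m + Fintype.card ι)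
    {O : Set E} (hO : IsOpen O) (hs : ∀ u, ‖u‖ = 1 → u ∈ O) {T : E → V →L[ℂ] W}
    (hT : ContDiffOn ℝ ∞ T O)
    (he : ∀ (α : Circle) u v, ‖u‖ = 1 → T ((α : ℂ) • u) (R.ρ α v) = R'.ρ α (T u v))
    (hK : ∀ u, ‖u‖ = 1 → IsCompactOperator (T u - D)) (hr : Rg fun x : E × V => T x.1 x.2) :
    R.Fi (fun x : E × V => T x.1 x.2) ∧ ((R.N (fun x : E × V => T x.1 x.2) : ℕ) : ZMod 2) =
      ((Ring.choose (∑ k, b k % 2 - ∑ i, a i % 2) m : ℤ) : ZMod 2) := by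
  have hbij : Bijective (blk D π σ) := by
    refine ⟨(injective_iff_map_eq_zero _).2 fun z h => ?_, fun z => ?_⟩
    · obtain ⟨h1, h2⟩ := p3 z.1 z.2 (congrArg Prod.fst h)
      exact Prod.ext (by rw [← h2, show π z.1 = 0 from congrArg Prod.snd h, map_zero]; rfl) h1
    · obtain ⟨v, w, h1, h2⟩ := p4 z.1
      exact ⟨(v + s z.2, w), Prod.ext (by simp [p2, h1]) (by simp [p1, h2])⟩
  have hD : D.IsFredholm := (Fr.of_blk (Fr.of_bijective hbij)).1
  have hDr : Fr (D.restrictScalars ℝ) (4 - finrank ℝ E) :=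
    (Fr.of_blk (Fr.of_bijective (L := blk (D.restrictScalars ℝ) (π.restrictScalars ℝ)
      (σ.restrictScalars ℝ)) hbij)).cast (by simp only [fr_real, fr_pi]; omega)
  obtain ⟨p, hp⟩ := exists_reg E a fun k => some (b k)
  have hA := Th_adm a (fun k => some (b k)) p
  let T₁ : E → V →L[ℂ] W := fun u => D + σ.comp ((ThL a b p u).comp π)
  have e1 : ∀ u v, T₁ u v = D v + σ (Th a (fun k => some (b k)) p (u, π v)) := fun u v => by
    simp [T₁, ThL_apply]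
  have sm1 : ContDiff ℝ ∞ T₁ := by
    let M : ((ι → ℂ) →L[ℂ] κ → ℂ) →L[ℂ] V →L[ℂ] W :=
      (ContinuousLinearMap.compL ℂ V (κ → ℂ) W σ).comp
        ((ContinuousLinearMap.compL ℂ V (ι → ℂ) (κ → ℂ)).flip π)
    have t2 : ContDiff ℝ ∞ fun u : E => ThL a b p u :=
      (ThL_sm a b).comp (f := fun u : E => (p, u)) (by fun_prop)
    exact contDiff_const.add ((M.restrictScalars ℝ).contDiff.comp t2)
  have hz : ∀ x ∈ Zs fun x : E × V => T₁ x.1 x.2,
      (x.1, π x.2) ∈ Zs (Th a (fun k => some (b k)) p) ∧ s (π x.2) = x.2 := fun x hx => by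
    obtain ⟨h1, h2⟩ := p3 _ _ ((e1 _ _).symm.trans hx.2.2)
    exact ⟨⟨hx.1, fun h => hx.2.1 (by rw [← h2, show π x.2 = 0 from h, map_zero]), h1⟩, h2⟩
  have r1 : Rg fun x : E × V => T₁ x.1 x.2 := fun x hx y => by
    obtain ⟨v, w, h1, h2⟩ := p4 y
    obtain ⟨δ, h3, h4⟩ := hp _ (hz x hx).1 w
    refine ⟨(δ.1, v + s δ.2), h3, ?_⟩
    let P : E × V →L[ℝ] E × (ι → ℂ) := (ContinuousLinearMap.id ℝ E).prodMap (π.restrictScalars ℝ)
    have h5 := (((D.restrictScalars ℝ).comp (.snd ℝ E V)).hasFDerivAt (x := x)).add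
      ((σ.restrictScalars ℝ).hasFDerivAt.comp x
        ((hA.1.differentiable (by simp) (P x)).hasFDerivAt.comp x P.hasFDerivAt))
    rw [(h5.congr_of_eventuallyEq (Eventually.of_forall fun x => e1 x.1 x.2)).fderiv]
    change D (v + s δ.2) + σ (fderiv ℝ _ (x.1, π x.2) (δ.1, π (v + s δ.2))) = y
    rw [map_add, map_add, p1, p2, h2, zero_add, add_zero, h4, h1]
  have key := inv_ban R R' hW hV hD hDr hO hs (fun i => cond i T₁ T)
    (fun i => by cases i; exacts [hT, sm1.contDiffOn])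
    (fun i α u v hu => by
      cases i
      · exact he α u v hu
      · simp [T₁, q1, q3, q4, ThL_eqv])
    (fun i u hu => by
      cases i
      · exact hK u hu
      · rw [show cond true T₁ T u - D = σ.comp ((ThL a b p u).comp π) from add_sub_cancel_left _ _]
        exact (cpt_fin ((ThL a b p u).comp π)).clm_comp σ)
    (fun i => by cases i; exacts [hr, r1])
  refine ⟨key.1, ((ZMod.natCast_eq_natCast_iff _ _ _).2 key.2).trans ?_⟩
  rw [← (count_fin hm b hd hA hp).2]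
  let _ := R.act E
  let _ := (wr a).act E
  refine congrArg _ (cnt_congr (fun x => ⟨_, (hz x x.2).1⟩) (fun x y => ⟨?_, ?_⟩) fun y => ?_)
  · rintro ⟨g, hg⟩
    refine ⟨g, Prod.ext (congrArg Prod.fst hg :) ?_⟩
    change (g.2 : ℂ) • (wr a).ρ g.1 (π x.1.2) = π y.1.2
    rw [← hg, ← q1, ← map_smul]
    rfl
  · rintro ⟨g, hg⟩
    refine ⟨g, Prod.ext (congrArg Prod.fst hg :) ?_⟩
    have h1 : (g.2 : ℂ) • (wr a).ρ g.1 (π x.1.2) = π y.1.2 := congrArg Prod.snd hg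
    change (g.2 : ℂ) • R.ρ g.1 x.1.2 = y.1.2
    rw [← (hz x x.2).2, ← (hz y y.2).2, ← h1, map_smul, q2]
  · refine ⟨⟨(y.1.1, s y.1.2), y.2.1, fun h => y.2.2.1 ?_, ?_⟩, 1, ?_⟩
    · rw [← p1 y.1.2, show s y.1.2 = 0 from h, map_zero]
    · change T₁ _ _ = 0
      rw [e1, p1, p2, y.2.2.2, map_zero, add_zero]
    · rw [one_smul]
      exact Prod.ext rfl (p1 _)

end Crest.Agent.X212.Tor74
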