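import Crest.Agent.X212.Tor74.Fin

/-! Toric counts, part 3: the finite-dimensional count is a binomial coefficient mod 2. -/

set_option autoImplicit false
set_option linter.unusedSectionVars false

noncomputable section

open Set Filter Topology Function Module
open scoped ContDiff InnerProductSpace ComplexConjugate

namespace Crest.Agent.X212.Tor74

open Slc61 Fred93

variable {E : Type} [NormedAddCommGroup E] [InnerProductSpace ℂ E] [NormedSpace ℝ E]
  [IsScalarTower ℝ ℂ E] [FiniteDimensional ℂ E]
  {ι κ : Type} [Fintype ι] [Fintype κ] {a : ι → ℤ}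

theorem adm_extend {A : Type} {χ : κ → Option ℤ} {f : A → κ} (hf : Injective f)
    {φ : A → E × (ι → ℂ) → ℂ} (h1 : ∀ t, ContDiff ℝ ∞ (φ t))
    (h2 : ∀ t g x, φ t ((wr a).ac g x) = ch (χ (f t)) g * φ t x) :
    Adm a χ fun x => extend f (fun t => φ t x) 0 := by
  refine ⟨contDiff_pi.2 fun k => ?_, fun g x k => ?_⟩ <;> by_cases h : ∃ t, f t = k
  · obtain ⟨t, rfl⟩ := h
    simpa only [hf.extend_apply] using h1 t
  · simpa only [extend_apply' _ _ _ h, Pi.zero_apply] using contDiff_const
  · obtain ⟨t, rfl⟩ := h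
    simp only [hf.extend_apply, h2]
  · simp only [extend_apply' _ _ _ h, Pi.zero_apply, mul_zero]

theorem co_basis (l l' : Λ E) :
    co l (stdOrthonormalBasis ℂ E l') = if l = l' then 1 else 0 :=
  orthonormal_iff_ite.1 (stdOrthonormalBasis ℂ E).orthonormal l l'

variable [CompleteSpace E] [SecondCountableTopology E] [ProperSpace E] [FiniteDimensional ℝ E]
  (hd : Fintype.card κ + 2 = finrank ℂ E + Fintype.card ι)

include hd

theorem nu_empty {χ : κ → Option ℤ} {F : E × (ι → ℂ) → κ → ℂ} (h : Adm a χ F)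
    (he : ∀ x, x ∉ Zs F) : nu E a χ = 0 := by
  rw [← (nu_eq hd h fun x hx => (he x hx).elim).2, Rep.N, eq_empty_of_forall_notMem he]
  let _ := (wr a).act E
  rw [cnt_empty, Nat.cast_zero]

theorem nu_U {χ : κ → Option ℤ} {f : Λ E → κ} (hf : Injective f) (h : ∀ l, χ (f l) = none) :
    nu E a χ = 0 := by
  refine nu_empty hd (adm_extend hf (φ := fun l x => co l x.1)
    (fun l => (co_sm l).comp contDiff_fst) fun l g x => by simp [h, ch, Rep.ac]) fun x hx => ?_
  obtain ⟨l, hl⟩ := exists_co (ne_of_norm hx.1)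
  exact hl (by simpa only [hf.extend_apply, Pi.zero_apply] using congrFun hx.2.2 (f l))

theorem nu_V {χ : κ → Option ℤ} {f : ι → κ} (hf : Injective f) (h : ∀ i, χ (f i) = some (a i)) :
    nu E a χ = 0 := by
  refine nu_empty hd (adm_extend hf (φ := fun i x => x.2 i) (fun i => by fun_prop)
    fun i g x => by simp [h, ch, Rep.ac, wrep_apply, mul_assoc]) fun x hx => hx.2.1 ?_
  funext i
  simpa only [hf.extend_apply, Pi.zero_apply] using congrFun hx.2.2 (f i)

theorem nu_one {χ : κ → Option ℤ} (l₀ : Λ E) (i₀ : ι) (e : {l // l ≠ l₀} ⊕ {i // i ≠ i₀} ≃ κ)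
    (b : {i // i ≠ i₀} → ℤ) (h1 : ∀ l, χ (e (.inl l)) = none)
    (h2 : ∀ i, χ (e (.inr i)) = some (b i)) : nu E a χ = 1 := by
  classical
  let φ : {l // l ≠ l₀} ⊕ {i // i ≠ i₀} → E × (ι → ℂ) → ℂ :=
    Sum.elim (fun l => bas a none l i₀) fun i => bas a (some (b i)) l₀ i
  have hA : Adm a χ fun x => extend e (fun t => φ t x) 0 := adm_extend e.injective
    (fun t => by
      cases t with
      | inl l => exact bas_sm a none l.1 i₀
      | inr i => exact bas_sm a (some (b i)) l₀ i.1) fun t g x => by
      cases t with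
      | inl l => rw [h1]; exact bas_ac a none l.1 i₀ g x
      | inr i => rw [h2]; exact bas_ac a (some (b i)) l₀ i.1 g x
  set F : E × (ι → ℂ) → κ → ℂ := fun x => extend e (fun t => φ t x) 0 with hF
  have hFe : ∀ x t, F x (e t) = φ t x := fun x t => e.injective.extend_apply _ _ t
  set B := stdOrthonormalBasis ℂ E with hB
  have hu : ∀ x ∈ Zs F, x.1 = co l₀ x.1 • B l₀ := fun x hx => by
    conv_lhs => rw [← sum_co x.1]
    refine Finset.sum_eq_single l₀ (fun l _ hl => ?_) (by simp)
    have : co l x.1 = 0 := (hFe x (.inl ⟨l, hl⟩)).symm.trans (congrFun hx.2.2 _)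
    rw [this, zero_smul]
  have hn : ∀ x ∈ Zs F, ‖co l₀ x.1‖ = 1 := fun x hx => by
    have := hx.1
    rwa [hu x hx, norm_smul, B.orthonormal.1 l₀, mul_one] at this
  have hv : ∀ x ∈ Zs F, ∀ i, i ≠ i₀ → x.2 i = 0 := fun x hx i hi =>
    (mul_eq_zero.1 ((hFe x (.inr ⟨i, hi⟩)).symm.trans (congrFun hx.2.2 _))).resolve_left
      (mon_ne _ (ne_of_norm (hn x hx)))
  have hr : Rg F := fun x hx w => by
    let δ : E × (ι → ℂ) := (∑ l : {l // l ≠ l₀}, w (e (.inl l)) • B l,
      fun i => if h : i ≠ i₀ then w (e (.inr ⟨i, h⟩)) / mon (b ⟨i, h⟩ - a i) (co l₀ x.1) else 0)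
    have d0 : co l₀ δ.1 = 0 := by
      simp only [δ, map_sum, map_smul, hB, co_basis]
      exact Finset.sum_eq_zero fun l _ => by rw [if_neg l.2.symm, smul_zero]
    have d1 : ∀ l : {l // l ≠ l₀}, co l δ.1 = w (e (.inl l)) := fun l => by
      simp only [δ, map_sum, map_smul, hB, co_basis]
      rw [Finset.sum_eq_single l (fun l' _ hl => by
        rw [if_neg fun h => hl (Subtype.ext h).symm, smul_zero]) (by simp)]
      simp
    refine ⟨δ, ?_, fderiv_affine (hA.1.differentiable (by simp) x) fun s => funext fun k => ?_⟩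
    · rw [hu x hx, inner_smul_left, show ⟪B l₀, δ.1⟫_ℂ = 0 from d0, mul_zero, Complex.zero_re]
    · obtain ⟨t, rfl⟩ := e.surjective k
      rw [Pi.add_apply, hFe, hFe]
      cases t with
      | inl l =>
        change co l (x.1 + s • δ.1) = co l x.1 + s • w _
        rw [map_add, ContinuousLinearMap.map_smul_of_tower, d1]
      | inr i =>
        change mon _ (co l₀ (x.1 + s • δ.1)) * (x.2 i + s • δ.2 i) = mon _ _ * x.2 i + s • w _
        have := mon_ne (b i - a i) (ne_of_norm (hn x hx))
        rw [map_add, ContinuousLinearMap.map_smul_of_tower, d0, smul_zero, add_zero]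
        simp only [δ, dif_pos i.2, Complex.real_smul]
        field_simp
  rw [← (nu_eq hd hA hr).2]
  let _ := (wr a).act E
  have h0 : ((B l₀, Pi.single i₀ 1) : E × (ι → ℂ)) ∈ Zs F := by
    refine ⟨B.orthonormal.1 l₀, by simp, funext fun k => ?_⟩
    obtain ⟨t, rfl⟩ := e.surjective k
    rw [hFe]
    cases t with
    | inl l => exact (co_basis _ _).trans (if_neg l.2)
    | inr i => simp [φ, bas, Pi.single_eq_of_ne i.2]
  have h3 : ∀ x : Zs F, cls GG ⟨_, h0⟩ = cls GG x := fun x => by
    let α : Circle := ⟨co l₀ x.1.1, by simpa [Submonoid.unitSphere] using hn x x.2⟩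
    have hi : x.1.2 i₀ ≠ 0 := fun h => x.2.2.1 (funext fun i => by
      by_cases hi : i = i₀
      exacts [hi ▸ h, hv x x.2 i hi])
    have hα := zpow_ne_zero (a i₀) α.coe_ne_zero
    refine mk_eq_iff.2 ⟨(α, Units.mk0 _ (div_ne_zero hi hα)), Prod.ext (hu x x.2).symm ?_⟩
    funext i
    change (x.1.2 i₀ / (α : ℂ) ^ a i₀) * ((α : ℂ) ^ a i * (Pi.single i₀ 1 : ι → ℂ) i) = x.1.2 i
    by_cases h : i = i₀
    · subst h
      rw [Pi.single_eq_same]
      field_simp
    · rw [Pi.single_eq_of_ne h, hv x x.2 i h]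
      simp
  have h4 : (wr a).N F = 1 := Nat.card_eq_one_iff_exists.2 ⟨cls GG ⟨_, h0⟩, fun m => by
    obtain ⟨x, rfl⟩ := mk_surj m
    exact (h3 x).symm⟩
  rw [h4, Nat.cast_one]

omit hd

/-- parity of a character -/
def pa : Option ℤ → ℤ
  | none => 0
  | some b => b % 2

/-- shifted binomial coefficients mod 2 -/
def cf : ℕ → ℤ → ZMod 2
  | 0, _ => 0
  | m + 1, r => ((Ring.choose r m : ℤ) : ZMod 2)

theorem cf_succ (j : ℕ) (r : ℤ) : cf (j + 1) (r + 1) = cf (j + 1) r + cf j r := by
  cases j with
  | zero => simp [cf]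
  | succ m => simp only [cf, Ring.choose_succ_succ, Int.cast_add, add_comm]

variable (a) in
/-- number of odd equations minus number of odd variables -/
def rr (χ : κ → Option ℤ) : ℤ := ∑ k, pa (χ k) - ∑ i, a i % 2

/-- number of equations in `u` alone -/
def nU (χ : κ → Option ℤ) : ℕ := Fintype.card {k // χ k = none}

theorem rr_update [DecidableEq κ] (χ : κ → Option ℤ) (k : κ) (t : Option ℤ) :
    rr a (update χ k t) = rr a (update χ k none) + pa t := by
  have : ∀ t, ∑ k', pa (update χ k t k') = pa t + ∑ k' ∈ Finset.univ.erase k, pa (χ k') :=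
    fun t => by
      rw [← Finset.add_sum_erase _ _ (Finset.mem_univ k), update_self]
      exact congrArg _ (Finset.sum_congr rfl fun k' h => by
        rw [update_of_ne (Finset.ne_of_mem_erase h)])
  rw [rr, rr, this, this, show pa none = 0 from rfl]
  ring

theorem nU_congr {χ χ' : κ → Option ℤ} (h : ∀ k, χ k = none ↔ χ' k = none) : nU χ = nU χ' :=
  Fintype.card_congr (Equiv.subtypeEquivRight h)

theorem nU_update [DecidableEq κ] {χ : κ → Option ℤ} {k : κ} (h : χ k ≠ none) :
    nU (update χ k none) = nU χ + 1 := by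
  simp only [nU, Fintype.card_subtype]
  rw [← Finset.card_insert_of_notMem (a := k) (by simpa using h)]
  congr 1
  ext k'
  by_cases h' : k' = k <;> simp [h']

include hd in
theorem nu_formula (j : ℕ) : ∀ χ : κ → Option ℤ, nU χ + j = finrank ℂ E →
    nu E a χ = cf j (rr a χ) := by
  classical
  induction j with
  | zero =>
    intro χ h
    obtain ⟨e⟩ : Nonempty (Λ E ≃ {k // χ k = none}) :=
      Fintype.card_eq.1 (by rw [Fintype.card_fin]; exact h.symm)
    exact nu_U hd (f := fun l => (e l).1) (Subtype.val_injective.comp e.injective) fun l => (e l).2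
  | succ j ih =>
    have two : ∀ x : ZMod 2, x + x = 0 := fun x => by
      rw [← two_mul, show (2 : ZMod 2) = 0 from rfl, zero_mul]
    let ψ : (κ → Option ℤ) → ZMod 2 := fun χ => nu E a χ + cf (j + 1) (rr a χ)
    have step : ∀ χ : κ → Option ℤ, nU χ + (j + 1) = finrank ℂ E → ∀ k, χ k ≠ none → ∀ b : ℤ,
        ψ (update χ k (some b)) = ψ (update χ k (some 0)) := fun χ h k hk b => by
      have h1 := ih (update χ k none) (by rw [nU_update hk]; omega)
      have h2 : ∀ b : ℤ, ψ (update χ k (some (b + 1))) = ψ (update χ k (some b)) := fun b => by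
        simp only [ψ, nu_add χ hd, h1, rr_update χ k (some _), pa]
        rcases Int.emod_two_eq_zero_or_one b with hb | hb
        · rw [hb, show (b + 1) % 2 = 1 by omega, cf_succ, add_zero]
          linear_combination two (cf j (rr a (update χ k none)))
        · rw [hb, show (b + 1) % 2 = 0 by omega, cf_succ, add_zero]
          ring
      induction b using Int.induction_on with
      | zero => rfl
      | succ n hn => rw [h2, hn]
      | pred n hn => rw [← hn, ← h2, sub_add_cancel]
    have conn : ∀ χ χ' : κ → Option ℤ, nU χ + (j + 1) = finrank ℂ E →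
        (∀ k, χ k = none ↔ χ' k = none) → ψ χ' = ψ χ := fun χ χ' h hh => by
      have : ∀ s : Finset κ, ψ (s.piecewise χ' χ) = ψ χ := fun s => by
        induction s using Finset.induction_on with
        | empty => rw [Finset.piecewise_empty]
        | insert k s hk hs =>
          rw [Finset.piecewise_insert, ← hs]
          have h3 : s.piecewise χ' χ k = χ k := Finset.piecewise_eq_of_notMem _ _ _ hk
          by_cases h4 : χ k = none
          · rw [(hh k).1 h4, ← h4, ← h3, update_eq_self]
          · obtain ⟨b, hb⟩ := Option.ne_none_iff_exists'.1 h4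
            obtain ⟨b', hb'⟩ := Option.ne_none_iff_exists'.1 (mt (hh k).2 h4)
            have h5 : nU (s.piecewise χ' χ) + (j + 1) = finrank ℂ E := by
              rw [← h, nU_congr (χ' := χ) fun k' => ?_]
              by_cases h6 : k' ∈ s <;> simp [h6, hh]
            rw [hb', step _ h5 k (h3 ▸ h4), ← step _ h5 k (h3 ▸ h4) b, ← hb, ← h3, update_eq_self]
      simpa only [Finset.piecewise_univ] using this Finset.univ
    intro χ h
    have hc : Fintype.card {k // ¬ χ k = none} + nU χ = Fintype.card κ := by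
      rw [Fintype.card_subtype_compl]
      exact Nat.sub_add_cancel (Fintype.card_subtype_le _)
    rcases Nat.eq_zero_or_pos j with rfl | hj
    · obtain ⟨i₀⟩ : Nonempty ι := Fintype.card_pos_iff.1 (by omega)
      let l₀ : Λ E := ⟨0, by omega⟩
      obtain ⟨e1⟩ : Nonempty ({l // l ≠ l₀} ≃ {k // χ k = none}) := Fintype.card_eq.1 (by
        rw [Fintype.card_subtype_compl, Fintype.card_fin, Fintype.card_subtype_eq]
        change _ = nU χ
        omega)
      obtain ⟨e2⟩ : Nonempty ({i // i ≠ i₀} ≃ {k // ¬ χ k = none}) := Fintype.card_eq.1 (by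
        rw [Fintype.card_subtype_compl, Fintype.card_subtype_eq]
        omega)
      choose b hb using fun i => Option.ne_none_iff_exists'.1 (e2 i).2
      rw [nu_one hd l₀ i₀ ((e1.sumCongr e2).trans (Equiv.sumCompl _)) b (fun l => (e1 l).2) hb]
      simp [cf]
    · obtain ⟨f⟩ : Nonempty (ι ↪ {k // ¬ χ k = none}) :=
        Function.Embedding.nonempty_of_card_le (by omega)
      have hf : Injective fun i => (f i).1 := Subtype.val_injective.comp f.injective
      let χ' : κ → Option ℤ := extend (fun i => (f i).1) (fun i => some (a i))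
        fun k => if χ k = none then none else some 0
      have h1 : ∀ i, χ' (f i).1 = some (a i) := fun i => hf.extend_apply _ _ i
      have h2 : ∀ k, (¬ ∃ i, (f i).1 = k) → χ' k = if χ k = none then none else some 0 :=
        fun k hk => extend_apply' _ _ _ hk
      have h3 := conn χ χ' h fun k => by
        by_cases hk : ∃ i, (f i).1 = k
        · obtain ⟨i, rfl⟩ := hk
          simp [h1, (f i).2]
        · by_cases h4 : χ k = none <;> simp [h2 k hk, h4]
      have h4 : rr a χ' = 0 := by
        rw [rr, sub_eq_zero]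
        refine (Fintype.sum_of_injective _ hf _ _ (fun k hk => ?_) fun i => by rw [h1, pa]).symm
        rw [h2 k hk]
        split_ifs <;> rfl
      have h5 : ψ χ' = 0 := by
        simp only [ψ, nu_V hd hf h1, h4, cf, Ring.choose_zero_pos ℤ hj, Int.cast_zero, add_zero]
      have h6 : nu E a χ + cf (j + 1) (rr a χ) = 0 := h3.symm.trans h5
      linear_combination h6 - two (cf (j + 1) (rr a χ))

/-- **Finite-dimensional toric count.** -/
theorem count_fin {m : ℕ} (hm : finrank ℂ E = m + 1) (b : κ → ℤ)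
    (hd : Fintype.card κ + 1 = m + Fintype.card ι) {F : E × (ι → ℂ) → κ → ℂ}
    (h : Adm a (fun k => some (b k)) F) (hr : Rg F) :
    (wr a).Fi F ∧ (((wr a).N F : ℕ) : ZMod 2) =
      ((Ring.choose (∑ k, b k % 2 - ∑ i, a i % 2) m : ℤ) : ZMod 2) := by
  have hd' : Fintype.card κ + 2 = finrank ℂ E + Fintype.card ι := by omega
  have := nu_eq hd' h hr
  refine ⟨this.1, this.2.trans (nu_formula hd' (m + 1) _ ?_)⟩
  simp [nU, hm]

end Crest.Agent.X212.Tor74
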