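import Crest.Agent.X212.Tor74.Inv

/-! Toric counts, part 2: finite-dimensional problems; the count depends only on the characters
and is additive. -/

set_option autoImplicit false
set_option linter.unusedSectionVars false

noncomputable section

open Set Filter Topology Function Module
open scoped ContDiff InnerProductSpace ComplexConjugate

namespace Crest.Agent.X212.Tor74

open Slc61 Fred93

/-- a monomial of weight `n` -/
def mon (n : ℤ) (z : ℂ) : ℂ := z ^ n.toNat * conj z ^ (-n).toNat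

theorem mon_ne (n : ℤ) {z : ℂ} (h : z ≠ 0) : mon n z ≠ 0 :=
  mul_ne_zero (pow_ne_zero _ h) (pow_ne_zero _ ((map_ne_zero _).2 h))

theorem mon_sm (n : ℤ) : ContDiff ℝ ∞ (mon n) :=
  (contDiff_id.pow _).mul (Complex.conjCLE.contDiff.pow _)

theorem mon_mul (n : ℤ) (α : Circle) (z : ℂ) : mon n (α * z) = (α : ℂ) ^ n * mon n z := by
  have h : (α : ℂ) ^ n = (α : ℂ) ^ n.toNat * conj (α : ℂ) ^ (-n).toNat := by
    rw [← Circle.coe_inv_eq_conj, Circle.coe_inv, inv_pow, ← zpow_natCast, ← zpow_natCast,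
      ← zpow_neg, ← zpow_add₀ α.coe_ne_zero]
    congr 1
    omega
  rw [h, mon, mon, map_mul, mul_pow, mul_pow]
  ring

theorem mon_zero (z : ℂ) : mon 0 z = 1 := by simp [mon]

/-- the representation with weights `a` -/
def wrep {ι : Type} [Fintype ι] (V : ι → Type) [∀ i, NormedAddCommGroup (V i)]
    [∀ i, NormedSpace ℂ (V i)] [∀ i, NormedSpace ℝ (V i)] [∀ i, IsScalarTower ℝ ℂ (V i)]
    (a : ι → ℤ) : Rep (∀ i, V i) where
  ρ α := ContinuousLinearMap.pi fun i => (α : ℂ) ^ a i • ContinuousLinearMap.proj i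
  one v := by ext i; simp
  mul α β v := by ext i; simp [mul_zpow, mul_smul]
  cont := continuous_pi fun i => by
    change Continuous fun q : Circle × (∀ i, V i) => (q.1 : ℂ) ^ a i • q.2 i
    exact (Continuous.zpow₀ (by fun_prop) _ fun q => Or.inl q.1.coe_ne_zero).smul (by fun_prop)
  sm := contDiff_pi.2 fun i => by
    have : (fun q : ℝ × (∀ i, V i) => ((Circle.exp q.1 : Circle) : ℂ) ^ a i • q.2 i) =
        fun q => Complex.exp (a i * (Complex.ofRealCLM q.1 * Complex.I)) • q.2 i := by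
      funext q
      rw [Complex.exp_int_mul, Circle.coe_exp]
      rfl
    change ContDiff ℝ 1 fun q : ℝ × (∀ i, V i) => ((Circle.exp q.1 : Circle) : ℂ) ^ a i • q.2 i
    rw [this]
    exact (Complex.contDiff_exp.comp (by fun_prop)).smul (contDiff_pi.1 contDiff_snd i)

theorem wrep_apply {ι : Type} [Fintype ι] (V : ι → Type) [∀ i, NormedAddCommGroup (V i)]
    [∀ i, NormedSpace ℂ (V i)] [∀ i, NormedSpace ℝ (V i)] [∀ i, IsScalarTower ℝ ℂ (V i)]
    (a : ι → ℤ) (α : Circle) (v : ∀ i, V i) (i : ι) :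
    (wrep V a).ρ α v i = (α : ℂ) ^ a i • v i := rfl

theorem fderiv_affine {X Y : Type} [NormedAddCommGroup X] [NormedSpace ℝ X] [NormedAddCommGroup Y]
    [NormedSpace ℝ Y] {G : X → Y} {z δ : X} {y : Y} (hG : DifferentiableAt ℝ G z)
    (h : ∀ s : ℝ, G (z + s • δ) = G z + s • y) : fderiv ℝ G z δ = y := by
  have h1 : HasDerivAt (fun s : ℝ => z + s • δ) δ 0 := by
    simpa using ((hasDerivAt_id (0 : ℝ)).smul_const δ).const_add z
  have h2 : HasDerivAt (fun s : ℝ => G z + s • y) y 0 := by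
    simpa using ((hasDerivAt_id (0 : ℝ)).smul_const y).const_add (G z)
  have h3 := HasFDerivAt.comp_hasDerivAt_of_eq (0 : ℝ) hG.hasFDerivAt h1 (by simp)
  exact h3.unique (h2.congr_of_eventuallyEq (Eventually.of_forall h))

/-- the character of an equation -/
def ch : Option ℤ → GG → ℂ
  | none, g => g.1
  | some b, g => g.2 * (g.1 : ℂ) ^ b

variable {E : Type} [NormedAddCommGroup E] [InnerProductSpace ℂ E] [NormedSpace ℝ E]
  [IsScalarTower ℝ ℂ E] [FiniteDimensional ℂ E]

variable (E) in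
/-- index set of the coordinates -/
abbrev Λ := Fin (finrank ℂ E)

/-- coordinates -/
def co (l : Λ E) : E →L[ℂ] ℂ := innerSL ℂ (stdOrthonormalBasis ℂ E l)

theorem co_sm (l : Λ E) : ContDiff ℝ ∞ (co l) := ((co l).restrictScalars ℝ).contDiff

theorem sum_co (u : E) : ∑ l, co l u • stdOrthonormalBasis ℂ E l = u :=
  (stdOrthonormalBasis ℂ E).sum_repr' u

theorem exists_co {u : E} (h : u ≠ 0) : ∃ l, co l u ≠ 0 := by
  by_contra hc
  push Not at hc
  exact h (by rw [← sum_co u]; simp [hc])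

variable {ι κ κ' : Type} [Fintype ι] [Fintype κ] [Fintype κ'] (a : ι → ℤ)

/-- the finite-dimensional representation -/
abbrev wr : Rep (ι → ℂ) := wrep (fun _ => ℂ) a

/-- basic equivariant functions -/
def bas : Option ℤ → Λ E → ι → E × (ι → ℂ) → ℂ
  | none, l, _, x => co l x.1
  | some b, l, i, x => mon (b - a i) (co l x.1) * x.2 i

theorem bas_sm (t : Option ℤ) (l : Λ E) (i : ι) : ContDiff ℝ ∞ (bas a t l i) := by
  cases t with
  | none => exact (co_sm l).comp contDiff_fst
  | some b => exact ((mon_sm _).comp ((co_sm l).comp contDiff_fst)).mul (by fun_prop)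

theorem bas_ac (t : Option ℤ) (l : Λ E) (i : ι) (g : GG) (x : E × (ι → ℂ)) :
    bas a t l i ((wr a).ac g x) = ch t g * bas a t l i x := by
  cases t with
  | none => simp [bas, ch, Rep.ac]
  | some b =>
    simp only [bas, ch, Rep.ac, map_smul, smul_eq_mul, Pi.smul_apply, wrep_apply, mon_mul,
      zpow_sub₀ g.1.coe_ne_zero]
    have := zpow_ne_zero (a i) g.1.coe_ne_zero
    field_simp

theorem bas_ne {x : E × (ι → ℂ)} (hu : x.1 ≠ 0) (hv : x.2 ≠ 0) :
    ∃ l i, ∀ t, bas a t l i x ≠ 0 := by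
  obtain ⟨l, hl⟩ := exists_co hu
  obtain ⟨i, hi⟩ := Function.ne_iff.1 hv
  refine ⟨l, i, fun t => ?_⟩
  cases t with
  | none => exact hl
  | some b => exact mul_ne_zero (mon_ne _ hl) hi

/-- the universal family -/
def Th (χ : κ → Option ℤ) (p : κ → Λ E → ι → ℂ) (x : E × (ι → ℂ)) (k : κ) : ℂ :=
  ∑ l, ∑ i, p k l i * bas a (χ k) l i x

theorem Th_sm (χ : κ → Option ℤ) :
    ContDiff ℝ ∞ fun z : (κ → Λ E → ι → ℂ) × (E × (ι → ℂ)) => Th a χ z.1 z.2 :=
  contDiff_pi.2 fun k => ContDiff.sum fun l _ => ContDiff.sum fun i _ =>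
    (by fun_prop : ContDiff ℝ ∞ fun z : (κ → Λ E → ι → ℂ) × (E × (ι → ℂ)) => z.1 k l i).mul
      ((bas_sm a _ l i).comp contDiff_snd)

theorem Th_add (χ : κ → Option ℤ) (p q : κ → Λ E → ι → ℂ) (s : ℝ) (x : E × (ι → ℂ)) :
    Th a χ (p + s • q) x = Th a χ p x + s • Th a χ q x := by
  ext k
  simp [Th, add_mul, Finset.sum_add_distrib, Finset.mul_sum, mul_assoc]

theorem Th_surj (χ : κ → Option ℤ) {x : E × (ι → ℂ)} (hu : x.1 ≠ 0) (hv : x.2 ≠ 0) (w : κ → ℂ) :
    ∃ q, Th a χ q x = w := by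
  classical
  obtain ⟨l, i, h⟩ := bas_ne a hu hv
  refine ⟨fun k => Pi.single l (Pi.single i (w k / bas a (χ k) l i x)), funext fun k => ?_⟩
  rw [Th, Finset.sum_eq_single l (fun l' _ hl => by simp [Pi.single_eq_of_ne hl]) (by simp),
    Finset.sum_eq_single i (fun i' _ hi => by simp [Pi.single_eq_of_ne hi]) (by simp)]
  simp [h (χ k)]

/-- admissible systems of equations -/
def Adm (χ : κ → Option ℤ) (F : E × (ι → ℂ) → κ → ℂ) : Prop :=
  ContDiff ℝ ∞ F ∧ ∀ g x k, F ((wr a).ac g x) k = ch (χ k) g * F x k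

theorem Th_adm (χ : κ → Option ℤ) (p : κ → Λ E → ι → ℂ) : Adm a χ (Th a χ p) :=
  ⟨(Th_sm a χ).comp (contDiff_const.prodMk contDiff_id), fun g x k => by
    simp only [Th, bas_ac, Finset.mul_sum]
    exact Finset.sum_congr rfl fun _ _ => Finset.sum_congr rfl fun _ _ => by ring⟩

variable {a}

theorem Adm.inv {χ : κ → Option ℤ} {F : E × (ι → ℂ) → κ → ℂ} (h : Adm a χ F) (g : GG)
    {x : E × (ι → ℂ)} (hx : F x = 0) : F ((wr a).ac g x) = 0 :=
  funext fun k => by rw [h.2, hx]; simp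

theorem Adm.comp {χ : κ' → Option ℤ} {F : E × (ι → ℂ) → κ' → ℂ} (h : Adm a χ F) (j : κ → κ') :
    Adm a (χ ∘ j) fun x k => F x (j k) :=
  ⟨contDiff_pi.2 fun k => contDiff_pi.1 h.1 (j k), fun g x k => h.2 g x (j k)⟩

theorem ne_of_norm {X : Type} [NormedAddCommGroup X] {u : X} (h : ‖u‖ = 1) : u ≠ 0 :=
  norm_ne_zero_iff.1 (by rw [h]; exact one_ne_zero)

variable [CompleteSpace E] [SecondCountableTopology E] [ProperSpace E] [FiniteDimensional ℝ E]

theorem fr_real : finrank ℝ E = 2 * finrank ℂ E := by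
  rw [← Module.finrank_mul_finrank ℝ ℂ E, Complex.finrank_real_complex]

theorem fr_pi (ι : Type) [Fintype ι] : finrank ℝ (ι → ℂ) = 2 * Fintype.card ι := by
  rw [Module.finrank_pi_fintype]; simp [mul_comm]

theorem inv_fin {χ : κ → Option ℤ} (hd : Fintype.card κ + 2 = finrank ℂ E + Fintype.card ι)
    {F₀ F₁ : E × (ι → ℂ) → κ → ℂ} (a0 : Adm a χ F₀) (a1 : Adm a χ F₁) (h0 : Rg F₀) (h1 : Rg F₁) :
    (wr a).Fi F₀ ∧ (wr a).Fi F₁ ∧ (wr a).N F₀ ≡ (wr a).N F₁ [MOD 2] := by
  let G : ((E × (ι → ℂ)) × ℝ) × (κ → Λ E → ι → ℂ) → κ → ℂ := fun z =>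
    (1 - z.1.2) • F₀ z.1.1 + z.1.2 • F₁ z.1.1 + (z.1.2 * (1 - z.1.2)) • Th a χ z.2 z.1.1
  have hG : ContDiff ℝ ∞ G := by
    have t1 : ContDiff ℝ ∞ fun z : ((E × (ι → ℂ)) × ℝ) × (κ → Λ E → ι → ℂ) => z.1.2 := by fun_prop
    have t2 : ContDiff ℝ ∞ fun z : ((E × (ι → ℂ)) × ℝ) × (κ → Λ E → ι → ℂ) => z.1.1 := by fun_prop
    exact (((contDiff_const.sub t1).smul (a0.1.comp t2)).add (t1.smul (a1.1.comp t2))).add
      ((t1.mul (contDiff_const.sub t1)).smul ((Th_sm a χ).comp (contDiff_snd.prodMk t2)))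
  refine inv (wr a) (G := G) isOpen_univ (fun _ _ _ => trivial) hG.contDiffOn
    (fun p g x hx => ?_) (fun p x _ _ => (Fr.fin _).cast ?_) (fun p x hx ht w => ?_)
    (fun x p => by simp [G]) (fun x p => by simp [G]) h0 h1 (fun p x hx ht hv => ?_)
  · funext k
    have h2 : G (x, p) k = 0 := congrFun hx.2.2 k
    have h3 : G (((wr a).ac g x.1, x.2), p) k = ch (χ k) g * G (x, p) k := by
      simp only [G, Pi.add_apply, Pi.smul_apply, a0.2, a1.2, (Th_adm a χ p).2, Complex.real_smul]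
      ring
    rw [h3, h2]
    simp
  · simp only [finrank_prod, fr_real, fr_pi, finrank_self]
    omega
  · have hc : x.2 * (1 - x.2) ≠ 0 := mul_ne_zero ht.1.ne' (sub_pos.2 ht.2).ne'
    obtain ⟨q, hq⟩ := Th_surj a χ (ne_of_norm hx.1) hx.2.1 ((x.2 * (1 - x.2))⁻¹ • w)
    refine ⟨0, q, fderiv_affine (hG.differentiable (by simp) _) fun s => ?_⟩
    have : (x, p) + s • (((((0 : E), (0 : ι → ℂ)), (0 : ℝ)), q)) = (x, p + s • q) := by
      simp [Prod.ext_iff]
    rw [this]
    simp only [G, Th_add, hq, smul_add, smul_smul, add_assoc]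
    rw [mul_left_comm, mul_inv_cancel₀ hc, mul_one]
  · obtain ⟨b, -, φ, hφ, hb⟩ := (((isCompact_sphere (0 : E) 1).prod
      (isCompact_sphere (0 : ι → ℂ) 1)).prod (isCompact_Icc (a := (0 : ℝ)) (b := 1))).tendsto_subseq
      (x := x) fun n => ⟨⟨by simpa using (hx n).1, by simpa using hv n⟩, ht n⟩
    refine ⟨φ, b, hφ, ?_, hb⟩
    have h2 := ((hG.continuous.comp (f := fun y => (y, p)) (by fun_prop)).tendsto b).comp hb
    exact tendsto_nhds_unique h2 (tendsto_const_nhds.congr fun n => (hx (φ n)).2.2.symm)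

theorem gen_fin (χ : κ' → Option ℤ) {j : κ → κ'} (hj : Injective j) :
    ∀ᶠ p in residual (κ' → Λ E → ι → ℂ), Rg fun x k => Th a χ p x (j k) := by
  let G : ((E × (ι → ℂ)) × ℝ) × (κ' → Λ E → ι → ℂ) → κ → ℂ := fun z k => Th a χ z.2 z.1.1 (j k)
  have hG : ContDiff ℝ ∞ G := contDiff_pi.2 fun k => contDiff_pi.1 ((Th_sm a χ).comp
    (f := fun z : ((E × (ι → ℂ)) × ℝ) × (κ' → Λ E → ι → ℂ) => (z.2, z.1.1)) (by fun_prop)) (j k)
  have key := gen (G := G) (U := {z | z.1.1.2 ≠ 0}) (isOpen_ne_fun (by fun_prop) continuous_const)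
    hG.contDiffOn fun z hz hu _ => ⟨(Fr.fin _).1, fun w => by
      obtain ⟨q, hq⟩ := Th_surj a χ (ne_of_norm hu) hz (extend j w 0)
      refine ⟨0, q, fderiv_affine (hG.differentiable (by simp) _) fun s => ?_⟩
      have : z + s • (((((0 : E), (0 : ι → ℂ)), (0 : ℝ)), q)) = (z.1, z.2 + s • q) := by
        simp [Prod.ext_iff]
      rw [this]
      funext k
      simp only [G, Th_add, hq, Pi.add_apply, Pi.smul_apply, hj.extend_apply]⟩
  filter_upwards [key] with p hp x hx w
  obtain ⟨δ, h1, h2⟩ := hp (x, 0) hx.2.1 hx.1 hx.2.2 w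
  refine ⟨δ.1, h1, ?_⟩
  have h3 := (HasFDerivAt.comp (x, (0 : ℝ)) (f := Prod.fst)
    (((Th_adm a χ p).comp j).1.differentiable (by simp) x).hasFDerivAt hasFDerivAt_fst).fderiv
  rw [← h2]
  exact (congrArg (fun T : (E × (ι → ℂ)) × ℝ →L[ℝ] κ → ℂ => T δ) h3).symm

variable (E a) in
theorem exists_reg (χ : κ → Option ℤ) : ∃ p : κ → Λ E → ι → ℂ, Rg (Th a χ p) :=
  (dense_of_mem_residual (gen_fin (E := E) (a := a) χ injective_id)).nonempty

variable (E a) in
/-- the parity of the number of zeros of a regular system of type `χ` -/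
def nu (χ : κ → Option ℤ) : ZMod 2 := ((wr a).N (Th a χ (exists_reg E a χ).choose) : ℕ)

theorem nu_eq {χ : κ → Option ℤ} (hd : Fintype.card κ + 2 = finrank ℂ E + Fintype.card ι)
    {F : E × (ι → ℂ) → κ → ℂ} (h : Adm a χ F) (hr : Rg F) :
    (wr a).Fi F ∧ (((wr a).N F : ℕ) : ZMod 2) = nu E a χ := by
  have := inv_fin hd h (Th_adm a χ _) hr (exists_reg E a χ).choose_spec
  exact ⟨this.1, (ZMod.natCast_eq_natCast_iff _ _ _).2 this.2.2⟩

theorem fderiv_comp_j {X : Type} [NormedAddCommGroup X] [NormedSpace ℝ X] {F : X → κ' → ℂ} {x : X}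
    (h : DifferentiableAt ℝ F x) (j : κ → κ') (δ : X) (k : κ) :
    fderiv ℝ (fun y k => F y (j k)) x δ k = fderiv ℝ F x δ (j k) := by
  rw [(hasFDerivAt_pi.2 fun k => (hasFDerivAt_pi'.1 h.hasFDerivAt (j k))).fderiv]
  rfl

/-- **Additivity** in the character of one equation. -/
theorem nu_add [DecidableEq κ] (χ : κ → Option ℤ)
    (hd : Fintype.card κ + 2 = finrank ℂ E + Fintype.card ι) (k₀ : κ) (b : ℤ) :
    nu E a (update χ k₀ (some (b + 1))) =
      nu E a (update χ k₀ (some b)) + nu E a (update χ k₀ none) := by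
  let χ' : Option κ → Option ℤ := fun o => o.elim none (update χ k₀ (some b))
  let j : κ → Option κ := fun k => if k = k₀ then none else some k
  have hj : Injective j := fun k k' h => by
    by_cases h1 : k = k₀ <;> by_cases h2 : k' = k₀ <;> simp_all [j]
  obtain ⟨p, ⟨r1, r2⟩, r3⟩ := (dense_of_mem_residual (((gen_fin (E := E) (a := a) χ'
    (Option.some_injective κ)).and (gen_fin χ' hj)).and (gen_fin χ' injective_id))).nonempty
  have a3 := Th_adm a χ' p
  set F := Th a χ' p
  have a1 : Adm a (update χ k₀ (some b)) fun x k => F x (some k) := a3.comp some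
  have a2 : Adm a (update χ k₀ none) fun x k => F x (j k) := by
    convert a3.comp j using 1
    funext k
    by_cases h : k = k₀ <;> simp [χ', j, h]
  have h3 : ∀ x, x ∉ Zs F := fun x hx => by
    have := no_zero (wr a) (fun g x hx => a3.inv g hx.2.2) r3 hx
      (a3.1.contDiffAt.of_le (by simp)) (Fr.fin _)
    simp only [finrank_prod, fr_real, fr_pi, Fintype.card_option] at this
    omega
  let F' : E × (ι → ℂ) → κ → ℂ := fun x k =>
    if k = k₀ then F x none * F x (some k₀) else F x (some k)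
  have a4 : Adm a (update χ k₀ (some (b + 1))) F' := by
    refine ⟨contDiff_pi.2 fun k => ?_, fun g x k => ?_⟩ <;> by_cases h : k = k₀
    · simpa only [F', h, if_true] using (contDiff_pi.1 a3.1 none).mul (contDiff_pi.1 a3.1 (some k₀))
    · simpa only [F', h, if_false] using contDiff_pi.1 a3.1 (some k)
    · simp only [F', h, if_true, a3.2, χ', Option.elim, update_self, ch,
        zpow_add_one₀ g.1.coe_ne_zero]
      ring
    · simp only [F', h, if_false, a3.2, χ', Option.elim, update_of_ne h]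
  have hZ : Zs F' = (Zs fun x k => F x (some k)) ∪ Zs fun x k => F x (j k) := by
    ext x
    simp only [Zs, mem_union, mem_ofPred_eq, ← and_or_left, funext_iff, Pi.zero_apply]
    refine and_congr_right fun _ => and_congr_right fun _ => ⟨fun h => ?_, fun h k => ?_⟩
    · have h0 := h k₀
      simp only [F', if_true, mul_eq_zero] at h0
      refine h0.symm.imp (fun h1 k => ?_) fun h1 k => ?_ <;> have h2 := h k <;>
        by_cases h3 : k = k₀ <;> simp_all [F', j]
    · rcases h with h | h <;> have h0 := h k₀ <;> have h2 := h k <;>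
        by_cases h3 : k = k₀ <;> simp_all [F', j]
  have hdis : ∀ x, x ∈ (Zs fun x k => F x (some k)) → x ∉ Zs fun x k => F x (j k) :=
    fun x h1 h2 => h3 x ⟨h1.1, h1.2.1, funext fun o => by
      cases o with
      | none => simpa [j] using congrFun h2.2.2 k₀
      | some k => exact congrFun h1.2.2 k⟩
  have hD : ∀ x δ k, fderiv ℝ F' x δ k = if k = k₀ then F x none * fderiv ℝ F x δ (some k₀) +
      F x (some k₀) * fderiv ℝ F x δ none else fderiv ℝ F x δ (some k) := fun x δ k => by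
    have h := hasFDerivAt_pi'.1 (a3.1.differentiable (by simp) x).hasFDerivAt
    have h' := (hasFDerivAt_pi'.1 (a4.1.differentiable (by simp) x).hasFDerivAt k)
    by_cases hk : k = k₀
    · have := h'.unique (((h none).mul (h (some k₀))).congr_of_eventuallyEq
        (Eventually.of_forall fun y => by simp [F', hk]))
      simpa [hk] using congrArg (fun T : E × (ι → ℂ) →L[ℝ] ℂ => T δ) this
    · have := h'.unique ((h (some k)).congr_of_eventuallyEq
        (Eventually.of_forall fun y => by simp [F', hk]))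
      simpa [hk] using congrArg (fun T : E × (ι → ℂ) →L[ℝ] ℂ => T δ) this
  have r4 : Rg F' := fun x hx w => by
    have hdx := a3.1.differentiable (by simp) x
    rcases hZ ▸ hx with h | h
    · have h0 : F x (some k₀) = 0 := congrFun h.2.2 k₀
      have h1 : F x none ≠ 0 := fun h1 => hdis x h ⟨h.1, h.2.1, funext fun k => by
        have := congrFun h.2.2 k
        by_cases hk : k = k₀ <;> simp_all [j]⟩
      obtain ⟨δ, h4, h5⟩ := r1 x h (update w k₀ (w k₀ / F x none))
      refine ⟨δ, h4, funext fun k => ?_⟩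
      have h6 := fun k => (fderiv_comp_j hdx some δ k).symm.trans (congrFun h5 k)
      rw [hD, h6, h6, h0]
      by_cases hk : k = k₀
      · simp only [hk, if_true, update_self]; field_simp; ring
      · simp only [hk, if_false, update_of_ne hk]
    · have h0 : F x none = 0 := by simpa [j] using congrFun h.2.2 k₀
      have h1 : F x (some k₀) ≠ 0 := fun h1 => hdis x ⟨h.1, h.2.1, funext fun k => by
        have := congrFun h.2.2 k
        by_cases hk : k = k₀ <;> simp_all [j]⟩ h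
      obtain ⟨δ, h4, h5⟩ := r2 x h (update w k₀ (w k₀ / F x (some k₀)))
      refine ⟨δ, h4, funext fun k => ?_⟩
      have h6 := fun k => (fderiv_comp_j hdx j δ k).symm.trans (congrFun h5 k)
      rw [hD, h0]
      by_cases hk : k = k₀
      · have h7 := h6 k₀
        simp only [j, if_true, update_self] at h7
        simp only [hk, if_true, h7]; field_simp; ring
      · simpa only [j, hk, if_false, update_of_ne hk] using h6 k
  obtain ⟨f1, e1⟩ := nu_eq hd a1 r1
  obtain ⟨f2, e2⟩ := nu_eq hd a2 r2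
  rw [← (nu_eq hd a4 r4).2, ← e1, ← e2, ← Nat.cast_add, Rep.N, hZ]
  let _ := (wr a).act E
  have : Finite (Mod GG (Zs fun x k => F x (some k))) := f1
  have : Finite (Mod GG (Zs fun x k => F x (j k))) := f2
  have hI : Inv GG (Zs fun x k => F x (some k)) := fun g x hx =>
    ⟨((wr a).ac_norm g x).trans hx.1, (wr a).ac_ne g hx.2.1, a1.inv g hx.2.2⟩
  rw [cnt_union hI (Set.disjoint_left.2 hdis)]
  rfl

end Crest.Agent.X212.Tor74
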