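import Crest.Agent.X212.Slc61.Par
import Crest.Agent.X212.Fred93.Cpt
import Crest.Agent.X212.Kur68.Main

/-! Toric counts, part 1: the group `S¹ × ℂˣ` acting on `E × V`, slices, cobordism invariance. -/

set_option autoImplicit false
set_option linter.unusedSectionVars false

noncomputable section

open Set Filter Topology Function
open scoped ContDiff InnerProductSpace

namespace Crest.Agent.X212.Tor74

open Slc61 Fred93 Kur

/-- the torus -/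
abbrev GG := Circle × ℂˣ

/-- a circle representation -/
structure Rep (V : Type) [NormedAddCommGroup V] [NormedSpace ℂ V] [NormedSpace ℝ V] where
  ρ : Circle → V →L[ℂ] V
  one : ∀ v, ρ 1 v = v
  mul : ∀ a b v, ρ (a * b) v = ρ a (ρ b v)
  cont : Continuous fun q : Circle × V => ρ q.1 q.2
  sm : ContDiff ℝ 1 fun q : ℝ × V => ρ (Circle.exp q.1) q.2

variable {E V W : Type} [NormedAddCommGroup E] [InnerProductSpace ℂ E] [NormedSpace ℝ E]
  [IsScalarTower ℝ ℂ E] [NormedAddCommGroup V] [NormedSpace ℂ V] [NormedSpace ℝ V]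
  [IsScalarTower ℝ ℂ V] [NormedAddCommGroup W] [NormedSpace ℝ W]

namespace Rep

variable (R : Rep V)

/-- the action on pairs -/
def ac (g : GG) (x : E × V) : E × V := ((g.1 : ℂ) • x.1, (g.2 : ℂ) • R.ρ g.1 x.2)

theorem ac_one (x : E × V) : R.ac 1 x = x := by simp [ac, R.one]

theorem ac_mul (g h : GG) (x : E × V) : R.ac (g * h) x = R.ac g (R.ac h x) := by
  simp [ac, R.mul, mul_smul]

theorem ρ_ne {a : Circle} {v : V} (hv : v ≠ 0) : R.ρ a v ≠ 0 := fun h => hv (by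
  rw [← R.one v, ← inv_mul_cancel a, R.mul, h, map_zero])

theorem ac_norm (g : GG) (x : E × V) : ‖(R.ac g x).1‖ = ‖x.1‖ := by
  change ‖(g.1 : ℂ) • x.1‖ = _
  rw [norm_smul, Circle.norm_coe, one_mul]

theorem ac_ne (g : GG) {x : E × V} (h : x.2 ≠ 0) : (R.ac g x).2 ≠ 0 :=
  smul_ne_zero g.2.ne_zero (R.ρ_ne h)

theorem cont_ac : Continuous fun q : GG × (E × V) => R.ac q.1 q.2 := by
  have h1 : Continuous fun q : GG × (E × V) => (q.1.1 : ℂ) := by fun_prop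
  have h2 : Continuous fun q : GG × (E × V) => (q.1.2 : ℂ) :=
    Units.continuous_val.comp (by fun_prop)
  exact (h1.smul (by fun_prop)).prodMk
    (h2.smul (R.cont.comp (f := fun q : GG × (E × V) => (q.1.1, q.2.2)) (by fun_prop)))

variable (E) in
/-- the action as a structure -/
@[reducible] def act : MulAction GG (E × V) where
  smul := R.ac
  one_smul := R.ac_one
  mul_smul := R.ac_mul

variable (E) in
/-- the action with one parameter -/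
@[reducible] def act1 : MulAction GG ((E × V) × ℝ) where
  smul g x := (R.ac g x.1, x.2)
  one_smul x := Prod.ext (R.ac_one x.1) rfl
  mul_smul g h x := Prod.ext (R.ac_mul g h x.1) rfl

/-- properness of the action on the free part -/
theorem proper {x : ℕ → E × V} {g : ℕ → GG} {a b : E × V} (ha : a.2 ≠ 0) (hb : b.2 ≠ 0)
    (h1 : Tendsto x atTop (𝓝 a)) (h2 : Tendsto (fun n => R.ac (g n) (x n)) atTop (𝓝 b)) :
    ∃ (φ : ℕ → ℕ) (k : GG), StrictMono φ ∧ Tendsto (g ∘ φ) atTop (𝓝 k) := by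
  obtain ⟨α, -, φ, hφ, hα⟩ := isCompact_univ.tendsto_subseq (x := fun n => (g n).1)
    fun n => mem_univ _
  have h3 : Tendsto (fun n => R.ρ (g (φ n)).1 (x (φ n)).2) atTop (𝓝 (R.ρ α a.2)) :=
    (R.cont.tendsto (α, a.2)).comp (hα.prodMk_nhds
      (((continuous_snd.tendsto a).comp h1).comp hφ.tendsto_atTop))
  have h4 : Tendsto (fun n => ((g (φ n)).2 : ℂ) • R.ρ (g (φ n)).1 (x (φ n)).2) atTop (𝓝 b.2) :=
    ((continuous_snd.tendsto b).comp h2).comp hφ.tendsto_atTop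
  obtain ⟨l, -, hl⟩ := exists_dual_vector ℂ (R.ρ α a.2) (norm_ne_zero_iff.2 (R.ρ_ne ha))
  have hl0 : l (R.ρ α a.2) ≠ 0 := by
    rw [hl]; exact Complex.ofReal_ne_zero.2 (norm_ne_zero_iff.2 (R.ρ_ne ha))
  have h5 := (l.continuous.tendsto _).comp h3
  have h6 := ((l.continuous.tendsto _).comp h4).div h5 hl0
  have h7 : Tendsto (fun n => ((g (φ n)).2 : ℂ)) atTop (𝓝 (l b.2 / l (R.ρ α a.2))) := by
    refine h6.congr' ?_
    filter_upwards [h5.eventually_ne hl0] with n hn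
    simp only [comp_apply, Pi.div_apply, map_smul, smul_eq_mul] at hn ⊢
    field_simp
  have h8 : l b.2 / l (R.ρ α a.2) ≠ 0 := fun h => hb (by
    have := tendsto_nhds_unique h4 (h7.smul h3)
    rw [this, h, zero_smul])
  refine ⟨φ, (α, Units.mk0 _ h8), hφ, hα.prodMk_nhds ?_⟩
  exact Units.isEmbedding_val₀.tendsto_nhds_iff.2 h7

end Rep

/-- the exponential chart -/
def ee (ξ : ℝ × ℂ) : GG := (Circle.exp ξ.1, Units.mk0 (Complex.exp ξ.2) (Complex.exp_ne_zero _))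

theorem ee_nhds {U : Set (ℝ × ℂ)} (hU : U ∈ 𝓝 0) : ee '' U ∈ 𝓝 (1 : GG) := by
  obtain ⟨A, hA, B, hB, hAB⟩ := mem_nhds_prod_iff.1 hU
  have h1 : Circle.exp '' A ∈ 𝓝 (1 : Circle) := by
    rw [← Circle.exp_zero]
    exact isLocalHomeomorph_circleExp.isOpenMap.image_mem_nhds hA
  have h2 : Complex.exp '' B ∈ 𝓝 (1 : ℂ) := by
    rw [← Complex.exp_zero]
    exact Complex.isOpenMap_exp.image_mem_nhds hB
  have h3 : (Units.val : ℂˣ → ℂ) ⁻¹' (Complex.exp '' B) ∈ 𝓝 (1 : ℂˣ) :=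
    Units.continuous_val.continuousAt.preimage_mem_nhds h2
  refine mem_of_superset (prod_mem_nhds h1 h3) ?_
  rintro ⟨a, b⟩ ⟨⟨s, hs, h4⟩, c, hc, h5⟩
  exact ⟨(s, c), hAB ⟨hs, hc⟩, Prod.ext h4 (Units.ext h5)⟩

theorem strict_of_partial {L C : Type} [NormedAddCommGroup L] [NormedSpace ℝ L]
    [NormedAddCommGroup C] [NormedSpace ℝ C] {Φ : L × C → C} {x : C} {d : L →L[ℝ] C}
    (h : ContDiff ℝ 1 Φ) (h0 : ∀ y, Φ (0, y) = y) (hd : HasFDerivAt (fun ξ => Φ (ξ, x)) d 0) :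
    HasStrictFDerivAt Φ (d.coprod (ContinuousLinearMap.id ℝ C)) (0, x) := by
  have h1 := h.hasStrictFDerivAt (x := (0, x)) one_ne_zero
  have h2 := (h1.hasFDerivAt.comp (0 : L) (hasFDerivAt_prodMk_left (0 : L) x)).unique hd
  have h3 := (h1.hasFDerivAt.comp x (hasFDerivAt_prodMk_right (0 : L) x)).unique
    ((hasFDerivAt_id x).congr_of_eventuallyEq (Eventually.of_forall h0))
  have h4 : fderiv ℝ Φ (0, x) = d.coprod (ContinuousLinearMap.id ℝ C) := by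
    rw [← h2, ← h3, ContinuousLinearMap.coprod_comp_inl_inr]
  exact h4 ▸ h1

/-- a slice at every free point -/
theorem exists_slice (R : Rep V) (x : (E × V) × ℝ) (hu : x.1.1 ≠ 0) (hv : x.1.2 ≠ 0) :
    Nonempty (@SliceData GG _ ((E × V) × ℝ) _ _ (R.act1 E) (ℝ × ℂ) (ℝ × ℂ) _ _ _ _ x) := by
  let _ := R.act1 E
  obtain ⟨⟨u, v⟩, t⟩ := x
  obtain ⟨l, -, hl⟩ := exists_dual_vector ℂ v (norm_ne_zero_iff.2 hv)
  have hl0 : l v ≠ 0 := by rw [hl]; exact Complex.ofReal_ne_zero.2 (norm_ne_zero_iff.2 hv)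
  have hr : DifferentiableAt ℝ (fun θ : ℝ => R.ρ (Circle.exp θ) v) 0 :=
    ((R.sm.comp (f := fun θ : ℝ => (θ, v)) (by fun_prop)).differentiable one_ne_zero) 0
  set w := deriv (fun θ : ℝ => R.ρ (Circle.exp θ) v) 0 with hw
  let d1 : ℝ × ℂ →L[ℝ] E := (ContinuousLinearMap.fst ℝ ℝ ℂ).smulRight (Complex.I • u)
  let d2 : ℝ × ℂ →L[ℝ] V := (ContinuousLinearMap.fst ℝ ℝ ℂ).smulRight w +
    (ContinuousLinearMap.snd ℝ ℝ ℂ).smulRight v
  let σ : (E × V) × ℝ →L[ℝ] ℝ × ℂ :=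
    (((im' u).comp (ContinuousLinearMap.fst ℝ E V)).prod
      ((l.restrictScalars ℝ).comp (ContinuousLinearMap.snd ℝ E V))).comp
      (ContinuousLinearMap.fst ℝ (E × V) ℝ)
  have hexp : ∀ θ : ℝ, ((Circle.exp θ : Circle) : ℂ) = Complex.exp (θ * Complex.I) :=
    Circle.coe_exp
  have hc : ContDiff ℝ 1 fun θ : ℝ => Complex.exp (θ * Complex.I) :=
    Complex.contDiff_exp.comp (Complex.ofRealCLM.contDiff.mul contDiff_const)
  have hsm : ContDiff ℝ 1 fun q : (ℝ × ℂ) × ((E × V) × ℝ) => ee q.1 • q.2 := by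
    change ContDiff ℝ 1 fun q : (ℝ × ℂ) × ((E × V) × ℝ) =>
      (((Complex.exp (q.1.1 * Complex.I) • q.2.1.1,
        Complex.exp q.1.2 • R.ρ (Circle.exp q.1.1) q.2.1.2) : E × V), q.2.2)
    refine ContDiff.prodMk (ContDiff.prodMk ?_ ?_) (by fun_prop)
    · exact (hc.comp (by fun_prop)).smul (by fun_prop)
    · exact (Complex.contDiff_exp.comp (by fun_prop)).smul
        (R.sm.comp (f := fun q : (ℝ × ℂ) × ((E × V) × ℝ) => (q.1.1, q.2.1.2)) (by fun_prop))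
  have hd : HasFDerivAt (fun ξ : ℝ × ℂ => ee ξ • (((u, v), t) : (E × V) × ℝ))
      ((d1.prod d2).prod 0) 0 := by
    change HasFDerivAt (fun ξ : ℝ × ℂ =>
      ((((Complex.exp (ξ.1 * Complex.I) • u,
        Complex.exp ξ.2 • R.ρ (Circle.exp ξ.1) v) : E × V), t) : (E × V) × ℝ)) _ 0
    refine HasFDerivAt.prodMk (HasFDerivAt.prodMk ?_ ?_) (hasFDerivAt_const _ _)
    · have h1 : HasDerivAt (fun θ : ℝ => Complex.exp (θ * Complex.I) • u) (Complex.I • u) 0 := by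
        have := ((Complex.ofRealCLM.hasDerivAt (x := 0)).mul_const Complex.I).cexp.smul_const u
        simpa using this
      exact h1.hasFDerivAt.comp (0 : ℝ × ℂ) (hasFDerivAt_fst (𝕜 := ℝ) (p := (0 : ℝ × ℂ)))
    · have h1 : HasFDerivAt (fun ξ : ℝ × ℂ => Complex.exp ξ.2) (ContinuousLinearMap.snd ℝ ℝ ℂ) 0 := by
        have := ((Complex.hasDerivAt_exp 0).hasFDerivAt.restrictScalars ℝ).comp (0 : ℝ × ℂ)
          (hasFDerivAt_snd (𝕜 := ℝ) (p := (0 : ℝ × ℂ)))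
        refine this.congr_fderiv ?_
        ext <;> simp
      have h2 := hr.hasDerivAt.hasFDerivAt.comp (0 : ℝ × ℂ)
        (hasFDerivAt_fst (𝕜 := ℝ) (p := (0 : ℝ × ℂ)))
      refine (h1.smul h2).congr_fderiv ?_
      ext <;> simp [d2, R.one, hw]
  have hinj : Injective (σ.comp ((d1.prod d2).prod (0 : ℝ × ℂ →L[ℝ] ℝ))) := by
    rw [injective_iff_map_eq_zero]
    rintro ⟨θ, c⟩ h
    have h1 : (⟪u, θ • Complex.I • u⟫_ℂ).im = 0 := congrArg Prod.fst h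
    have h2 : l (θ • w + c • v) = 0 := congrArg Prod.snd h
    rw [rsmul, inner_smul_right, inner_smul_right, inner_self_eq_norm_sq_to_K] at h1
    have h3 : θ = 0 := by
      have : θ * ‖u‖ ^ 2 = 0 := by
        simpa [← Complex.ofReal_pow, Complex.mul_im, Complex.mul_re] using h1
      exact (mul_eq_zero.1 this).resolve_right (pow_ne_zero 2 (norm_ne_zero_iff.2 hu))
    subst h3
    simp only [zero_smul, zero_add, map_smul, smul_eq_mul] at h2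
    exact Prod.ext rfl ((mul_eq_zero.1 h2).resolve_right hl0)
  have : ContinuousSMul GG ((E × V) × ℝ) := ⟨(R.cont_ac.comp
    (f := fun q : GG × ((E × V) × ℝ) => (q.1, q.2.1)) (by fun_prop)).prodMk (by fun_prop)⟩
  refine ⟨⟨ee, (d1.prod d2).prod 0, fun y => σ y - σ ((u, v), t), σ, ?_,
    strict_of_partial hsm (fun y => ?_) hd, σ.hasStrictFDerivAt.sub_const _, sub_self _,
    ⟨hinj, (LinearMap.injective_iff_surjective
      (f := (σ.comp ((d1.prod d2).prod (0 : ℝ × ℂ →L[ℝ] ℝ)) : ℝ × ℂ →ₗ[ℝ] ℝ × ℂ))).1 hinj⟩,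
    tame_of_proper (fun x g h1 h2 => ?_) (fun k hk y => ?_) fun U hU => ee_nhds hU⟩⟩
  · simp [ee, Prod.ext_iff]
  · have : ee (0 : ℝ × ℂ) = 1 := by simp [ee, Prod.ext_iff]
    change ee 0 • y = y
    rw [this, one_smul]
  · exact R.proper (x := fun n => (x n).1) (a := (u, v)) (b := (u, v)) hv hv
      ((continuous_fst.tendsto _).comp h1) ((continuous_fst.tendsto _).comp h2)
  · have h1 : (k.1 : ℂ) • u = u := congrArg (fun z : (E × V) × ℝ => z.1.1) hk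
    have h2 : (k.2 : ℂ) • R.ρ k.1 v = v := congrArg (fun z : (E × V) × ℝ => z.1.2) hk
    have h3 : k.1 = 1 := Circle.ext (smul_left_injective ℂ hu (by simpa using h1))
    rw [h3, R.one] at h2
    have h4 : k.2 = 1 := Units.ext (smul_left_injective ℂ hv (by simpa using h2))
    rw [show k = 1 from Prod.ext h3 h4, one_smul]

/-- normalised zeros -/
def Zs (F : E × V → W) : Set (E × V) := {x | ‖x.1‖ = 1 ∧ x.2 ≠ 0 ∧ F x = 0}

/-- the number of orbits of zeros -/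
def Rep.N (R : Rep V) (F : E × V → W) : ℕ := @cnt GG _ (E × V) (R.act E) (Zs F)

/-- finitely many orbits of zeros -/
def Rep.Fi (R : Rep V) (F : E × V → W) : Prop := Finite (@Mod GG _ (E × V) (R.act E) (Zs F))

/-- regular zeros: the derivative along the sphere is onto -/
def Rg (F : E × V → W) : Prop :=
  ∀ x ∈ Zs F, ∀ w, ∃ δ : E × V, (⟪x.1, δ.1⟫_ℂ).re = 0 ∧ fderiv ℝ F x δ = w

/-- zeros of a one parameter family -/
def Z1 (H : (E × V) × ℝ → W) : Set ((E × V) × ℝ) := {x | ‖x.1.1‖ = 1 ∧ x.1.2 ≠ 0 ∧ H x = 0}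

/-- derivative of the norm equation -/
def nd (u : E) : (E × V) × ℝ →L[ℝ] ℝ :=
  (((2 : ℝ) • re' u).comp (ContinuousLinearMap.fst ℝ E V)).comp (ContinuousLinearMap.fst ℝ (E × V) ℝ)

@[simp] theorem nd_apply (u : E) (δ : (E × V) × ℝ) : nd u δ = 2 * (⟪u, δ.1.1⟫_ℂ).re := rfl

theorem strict_nd (x : (E × V) × ℝ) :
    HasStrictFDerivAt (fun y : (E × V) × ℝ => ‖y.1.1‖ ^ 2 - 1) (nd x.1.1) x := by
  have h1 : ContDiff ℝ 1 fun y : (E × V) × ℝ => ‖y.1.1‖ ^ 2 - 1 :=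
    ((contDiff_norm_sq ℂ).comp (by fun_prop)).sub contDiff_const
  have h2 : HasFDerivAt (fun y : (E × V) × ℝ => ‖y.1.1‖ ^ 2 - 1) (nd x.1.1) x :=
    ((hasFDerivAt_nsq x.1.1).comp x (hasFDerivAt_fst.comp x hasFDerivAt_fst)).sub_const 1
  exact h2.fderiv ▸ h1.hasStrictFDerivAt one_ne_zero

theorem surj_nd {u : E} (hu : ‖u‖ = 1) {A : (E × V) × ℝ →L[ℝ] W} {S : Set ((E × V) × ℝ)}
    (hS : ∀ δ ∈ S, ∀ e : E, δ + ((e, 0), 0) ∈ S)
    (h : ∀ w, ∃ δ ∈ S, (⟪u, δ.1.1⟫_ℂ).re = 0 ∧ A δ = w) (r : ℝ) (w : W) :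
    ∃ δ ∈ S, nd u δ = r ∧ A δ = w := by
  obtain ⟨δ, h0, h1, h2⟩ := h (w - A (((r / 2) • u, 0), 0))
  refine ⟨_, hS δ h0 ((r / 2) • u), ?_, by rw [map_add, h2, sub_add_cancel]⟩
  simp only [nd_apply, Prod.fst_add, inner_add_right, Complex.add_re, h1, rsmul, inner_smul_right,
    inner_self_eq_norm_sq_to_K, hu]
  simp
  ring

theorem nsq_iff {u : E} : ‖u‖ ^ 2 - 1 = 0 ↔ ‖u‖ = 1 := by
  rw [sub_eq_zero, pow_eq_one_iff_of_nonneg (norm_nonneg u) two_ne_zero]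

variable [CompleteSpace E] [CompleteSpace V] [CompleteSpace W]

theorem reg (R : Rep V) {H : (E × V) × ℝ → W} {x : (E × V) × ℝ} (hx : x ∈ Z1 H)
    (hH : ContDiffAt ℝ 1 H x) {n : ℤ} (hF : Fr (fderiv ℝ H x) n)
    (hs : ∀ w, ∃ δ : (E × V) × ℝ, (⟪x.1.1, δ.1.1⟫_ℂ).re = 0 ∧ fderiv ℝ H x δ = w) :
    letI := R.act1 E
    Reg (ℝ × ℂ) (ℝ × ℂ) GG (Z1 H) (fun y => (H y, ‖y.1.1‖ ^ 2 - 1)) (n - 4) x := by
  let _ := R.act1 E
  have hu : x.1.1 ≠ 0 := norm_ne_zero_iff.1 (by rw [hx.1]; exact one_ne_zero)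
  obtain ⟨D⟩ := exists_slice R x hu hx.2.1
  have h1 := (hF.prod (nd x.1.1)).prod D.σ
  refine ⟨D, (fderiv ℝ H x).prod (nd x.1.1),
    (hH.hasStrictFDerivAt one_ne_zero).prodMk (strict_nd x), ?_, ?_, h1.1.finite_ker, ?_⟩
  · have : ∀ᶠ y : (E × V) × ℝ in 𝓝 x, y.1.2 ≠ 0 :=
      (by fun_prop : Continuous fun y : (E × V) × ℝ => y.1.2).continuousAt.eventually_ne hx.2.1
    filter_upwards [this] with y hy
    simp only [Z1, mem_ofPred_eq, Prod.mk_eq_zero, nsq_iff]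
    tauto
  · rintro ⟨w, r⟩
    obtain ⟨δ, -, h2, h3⟩ := surj_nd hx.1 (S := univ) (by simp)
      (fun w => (hs w).imp fun _ h => ⟨mem_univ _, h⟩) r w
    exact ⟨δ, Prod.ext h3 h2⟩
  · refine h1.2.trans ?_
    simp only [Module.finrank_self, Module.finrank_prod, Complex.finrank_real_complex]
    push_cast
    ring

theorem level (R : Rep V) (H : (E × V) × ℝ → W) (a : ℝ) :
    Nonempty (@Mod GG _ (E × V) (R.act E) (Zs fun x => H (x, a)) ≃
      @Mod GG _ _ (R.act1 E) (Z1 H ∩ Prod.snd ⁻¹' {a})) := by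
  let _ := R.act1 E
  let _ := R.act E
  refine ⟨congrEquiv (fun x => ⟨(x.1, a), x.2, rfl⟩) (fun x y => ?_) ?_⟩
  · exact ⟨fun ⟨g, hg⟩ => ⟨g, Prod.ext hg rfl⟩, fun ⟨g, hg⟩ => ⟨g, congrArg Prod.fst hg⟩⟩
  · rintro ⟨⟨x, t⟩, h1, rfl⟩
    exact ⟨⟨x, h1⟩, 1, one_smul _ _⟩

variable [SecondCountableTopology E] [SecondCountableTopology V]

/-- cobordism invariance of the count -/
theorem cob (R : Rep V) {H : (E × V) × ℝ → W}
    (hi : ∀ g, ∀ x ∈ Z1 H, H (R.ac g x.1, x.2) = 0)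
    (hH : ∀ x ∈ Z1 H, x.2 ∈ Icc (0 : ℝ) 1 → ContDiffAt ℝ 1 H x ∧ Fr (fderiv ℝ H x) 5)
    (hs : ∀ x ∈ Z1 H, x.2 ∈ Ioo (0 : ℝ) 1 →
      ∀ w, ∃ δ : (E × V) × ℝ, (⟪x.1.1, δ.1.1⟫_ℂ).re = 0 ∧ fderiv ℝ H x δ = w)
    (h0 : Rg fun x => H (x, 0)) (h1 : Rg fun x => H (x, 1))
    (hc : ∀ x : ℕ → (E × V) × ℝ, (∀ n, x n ∈ Z1 H) → (∀ n, (x n).2 ∈ Icc (0 : ℝ) 1) →
      (∀ n, ‖(x n).1.2‖ = 1) → ∃ (φ : ℕ → ℕ) (a : (E × V) × ℝ), StrictMono φ ∧ H a = 0 ∧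
        Tendsto (x ∘ φ) atTop (𝓝 a)) :
    R.Fi (fun x => H (x, 0)) ∧ R.Fi (fun x => H (x, 1)) ∧
      R.N (fun x => H (x, 0)) ≡ R.N (fun x => H (x, 1)) [MOD 2] := by
  let _ := R.act1 E
  have : ContinuousSMul GG ((E × V) × ℝ) := ⟨(R.cont_ac.comp
    (f := fun q : GG × ((E × V) × ℝ) => (q.1, q.2.1)) (by fun_prop)).prodMk (by fun_prop)⟩
  have hZ : Inv GG (Z1 H) := fun g x hx =>
    ⟨(R.ac_norm g x.1).trans hx.1, R.ac_ne g hx.2.1, hi g x hx⟩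
  have hend : ∀ x ∈ Z1 H, x.2 = 0 ∨ x.2 = 1 → ∀ w, ∃ δ ∈ {δ : (E × V) × ℝ | δ.2 = 0},
      (⟪x.1.1, δ.1.1⟫_ℂ).re = 0 ∧ fderiv ℝ H x δ = w := by
    rintro ⟨x, t⟩ hx ht w
    have h2 : Rg fun y => H (y, t) := by rcases ht with rfl | rfl <;> assumption
    have h3 : t ∈ Icc (0 : ℝ) 1 := by rcases ht with rfl | rfl <;> simp
    obtain ⟨δ, h4, h5⟩ := h2 x hx w
    have h6 := (HasFDerivAt.comp x (f := fun y => (y, t))
      ((hH _ hx h3).1.differentiableAt one_ne_zero).hasFDerivAt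
      (hasFDerivAt_prodMk_left x t)).fderiv
    exact ⟨(δ, 0), rfl, h4, by rw [← h5]; exact (congrArg (fun T : E × V →L[ℝ] W => T δ) h6).symm⟩
  have key := cnt_modEq (L := ℝ × ℂ) (H := ℝ × ℂ) (G := GG) hZ
    (closedOrb_of_proper fun x g a b _ ha hb h2 h3 => R.proper (x := fun n => (x n).1) ha.2.1
      hb.2.1 ((continuous_fst.tendsto _).comp h2) ((continuous_fst.tendsto _).comp h3))
    (F := fun y => (H y, ‖y.1.1‖ ^ 2 - 1)) Prod.snd zero_lt_one (fun _ _ _ => rfl)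
    continuous_snd.continuousOn ?_ ?_
  · obtain ⟨e0⟩ := level R H 0
    obtain ⟨e1⟩ := level R H 1
    refine ⟨e0.finite_iff.2 key.1, e1.finite_iff.2 key.2.1, ?_⟩
    have := key.2.2
    rwa [cnt, cnt, ← Nat.card_congr e0, ← Nat.card_congr e1] at this
  · intro x hx
    have hn : ∀ n, ((‖(x n).1.2‖⁻¹ : ℝ) : ℂ) ≠ 0 := fun n =>
      Complex.ofReal_ne_zero.2 (inv_ne_zero (norm_ne_zero_iff.2 (hx n).1.2.1))
    let g : ℕ → GG := fun n => (1, Units.mk0 _ (hn n))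
    have hg : ∀ n, ‖(g n • x n).1.2‖ = 1 := fun n => by
      change ‖((‖(x n).1.2‖⁻¹ : ℝ) : ℂ) • R.ρ 1 (x n).1.2‖ = 1
      rw [R.one, norm_smul, Complex.norm_real, norm_inv, norm_norm,
        inv_mul_cancel₀ (norm_ne_zero_iff.2 (hx n).1.2.1)]
    obtain ⟨φ, a, hφ, ha, hl⟩ := hc (fun n => g n • x n) (fun n => hZ _ _ (hx n).1)
      (fun n => (hx n).2) hg
    refine ⟨φ, g ∘ φ, a, hφ, ⟨⟨?_, ?_, ha⟩, ?_⟩, hl⟩
    · exact isClosed_singleton.mem_of_tendsto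
        (((by fun_prop : Continuous fun y : (E × V) × ℝ => ‖y.1.1‖).tendsto a).comp hl)
        (Eventually.of_forall fun n => (hZ _ _ (hx (φ n)).1).1)
    · have : ‖a.1.2‖ = 1 := isClosed_singleton.mem_of_tendsto
        (((by fun_prop : Continuous fun y : (E × V) × ℝ => ‖y.1.2‖).tendsto a).comp hl)
        (Eventually.of_forall fun n => hg (φ n))
      exact norm_ne_zero_iff.1 (by rw [this]; exact one_ne_zero)
    · exact isClosed_Icc.mem_of_tendsto ((continuous_snd.tendsto a).comp hl)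
        (Eventually.of_forall fun n => (hx (φ n)).2)
  · intro x hx ht
    have h2 := hH x hx ht
    refine ⟨1, ?_, fun he => ⟨_, hasStrictFDerivAt_snd, ?_⟩⟩ <;> rw [one_smul]
    · refine reg R hx h2.1 h2.2 fun w => ?_
      by_cases he : x.2 = 0 ∨ x.2 = 1
      · exact (hend x hx he w).imp fun _ h => h.2
      · push Not at he
        exact hs x hx ⟨lt_of_le_of_ne ht.1 he.1.symm, lt_of_le_of_ne ht.2 he.2⟩ w
    · rw [((h2.1.hasStrictFDerivAt one_ne_zero).prodMk (strict_nd x)).hasFDerivAt.fderiv]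
      rintro ⟨⟨w, r⟩, s⟩
      obtain ⟨δ, h3, h4, h5⟩ := surj_nd hx.1 (S := {δ : (E × V) × ℝ | δ.2 = 0})
        (fun δ h e => by simpa using h) (hend x hx he) r (w - fderiv ℝ H x (0, s))
      refine ⟨δ + (0, s), Prod.ext (Prod.ext ?_ ?_) ?_⟩
      · change fderiv ℝ H x (δ + (0, s)) = w
        rw [map_add, h5, sub_add_cancel]
      · change nd x.1.1 (δ + (0, s)) = r
        rw [map_add, h4]
        simp
      · change δ.2 + s = s
        rw [h3, zero_add]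

/-- negative index: no zero -/
theorem no_zero (R : Rep V) {F : E × V → W} (hi : ∀ g, ∀ x ∈ Zs F, F (R.ac g x) = 0) (hr : Rg F)
    {x : E × V} (hx : x ∈ Zs F) (hF : ContDiffAt ℝ 1 F x) {n : ℤ} (hn : Fr (fderiv ℝ F x) n) :
    3 ≤ n := by
  let _ := R.act1 E
  have hd : fderiv ℝ (fun y : (E × V) × ℝ => F y.1) (x, 0) =
      (fderiv ℝ F x).comp (ContinuousLinearMap.fst ℝ (E × V) ℝ) :=
    ((hF.differentiableAt one_ne_zero).hasFDerivAt.comp (x, (0 : ℝ)) hasFDerivAt_fst).fderiv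
  have h1 := reg R (H := fun y => F y.1) (x := (x, 0)) hx (hF.comp (x, (0 : ℝ)) contDiffAt_fst)
    (n := n + 1) (hd ▸ (hn.comp Fr.fst).cast (by simp)) fun w => by
      obtain ⟨δ, h2, h3⟩ := hr x hx w
      exact ⟨(δ, 0), h2, by rw [hd]; exact h3⟩
  have hZ : Inv GG (Z1 fun y : (E × V) × ℝ => F y.1) := fun g x hx =>
    ⟨(R.ac_norm g x.1).trans hx.1, R.ac_ne g hx.2.1, hi g x.1 hx⟩
  have := Reg.nonneg (L := ℝ × ℂ) (H := ℝ × ℂ) hZ (x := (x, 0)) hx h1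
  omega

variable {P : Type} [NormedAddCommGroup P] [NormedSpace ℝ P] [CompleteSpace P]
  [SecondCountableTopology P]

/-- generic regularity -/
theorem gen {G : ((E × V) × ℝ) × P → W} {U : Set (((E × V) × ℝ) × P)} (hU : IsOpen U)
    (hG : ContDiffOn ℝ ∞ G U)
    (h : ∀ z ∈ U, ‖z.1.1.1‖ = 1 → G z = 0 → (fderiv ℝ (fun y => G (y, z.2)) z.1).IsFredholm ∧
      ∀ w, ∃ (v : V) (p : P), fderiv ℝ G z (((0, v), 0), p) = w) :
    ∀ᶠ p in residual P, ∀ x, (x, p) ∈ U → ‖x.1.1‖ = 1 → G (x, p) = 0 → ∀ w,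
      ∃ δ : (E × V) × ℝ, (⟪x.1.1, δ.1.1⟫_ℂ).re = 0 ∧ fderiv ℝ (fun y => G (y, p)) x δ = w := by
  have hd : ∀ z ∈ U, DifferentiableAt ℝ G z := fun z hz =>
    (hG.contDiffAt (hU.mem_nhds hz)).differentiableAt (by simp)
  have hd' : ∀ z ∈ U, fderiv ℝ (fun z => (G z, ‖z.1.1.1‖ ^ 2 - 1)) z = (fderiv ℝ G z).prod
      ((nd z.1.1.1).comp (ContinuousLinearMap.fst ℝ ((E × V) × ℝ) P)) := fun z hz =>
    ((hd z hz).hasFDerivAt.prodMk ((strict_nd z.1).hasFDerivAt.comp z hasFDerivAt_fst)).fderiv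
  have hE : ∀ z ∈ U, Sard93.dE (fun z => (G z, ‖z.1.1.1‖ ^ 2 - 1)) z =
      (fderiv ℝ (fun y => G (y, z.2)) z.1).prod (nd z.1.1.1) := fun z hz => by
    rw [← Sard93.dE_eq_fderiv (hd z hz)]
    refine ContinuousLinearMap.ext fun δ => ?_
    rw [Sard93.dE_apply, hd' z hz]
    rfl
  have key := Sard93.param hU (G := fun z => (G z, ‖z.1.1.1‖ ^ 2 - 1))
    (hG.prodMk (((contDiff_norm_sq ℂ).comp (by fun_prop)).sub contDiff_const).contDiffOn)
    (fun z hz h0 => by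
      rw [hE z hz]
      exact ((Fr.of (h z hz (nsq_iff.1 (congrArg Prod.snd h0)) (congrArg Prod.fst h0)).1).prod _).1)
    (fun z hz h0 => by
      have hu := nsq_iff.1 (congrArg Prod.snd h0)
      rintro ⟨w, r⟩
      obtain ⟨v, p, hv⟩ := (h z hz hu (congrArg Prod.fst h0)).2
        (w - fderiv ℝ G z ((((r / 2) • z.1.1.1, 0), 0), 0))
      refine ⟨(((0, v), 0), p) + ((((r / 2) • z.1.1.1, 0), 0), 0), ?_⟩
      rw [hd' z hz]
      refine Prod.ext ?_ ?_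
      · change fderiv ℝ G z _ = w
        rw [map_add, hv, sub_add_cancel]
      · change 2 * (⟪z.1.1.1, 0 + (r / 2) • z.1.1.1⟫_ℂ).re = r
        rw [zero_add, rsmul, inner_smul_right, inner_self_eq_norm_sq_to_K, hu]
        simp
        ring)
  filter_upwards [key] with p hp x hx hu h0 w
  obtain ⟨δ, hδ⟩ := hp x hx (Prod.ext h0 (nsq_iff.2 hu)) (w, 0)
  rw [hE _ hx] at hδ
  have h1 : 2 * (⟪x.1.1, δ.1.1⟫_ℂ).re = 0 := congrArg Prod.snd hδ
  exact ⟨δ, by linarith, congrArg Prod.fst hδ⟩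

/-- **Invariance**: two regular problems joined by a family with enough perturbations. -/
theorem inv (R : Rep V) {G : ((E × V) × ℝ) × P → W} {O : Set (E × V)} (hO : IsOpen O)
    (hsub : ∀ x : E × V, ‖x.1‖ = 1 → x.2 ≠ 0 → x ∈ O)
    (hG : ContDiffOn ℝ ∞ G {z | z.1.1 ∈ O})
    (hi : ∀ p g, ∀ x ∈ Z1 fun y => G (y, p), G ((R.ac g x.1, x.2), p) = 0)
    (hF : ∀ p, ∀ x ∈ Z1 fun y => G (y, p), x.2 ∈ Icc (0 : ℝ) 1 →
      Fr (fderiv ℝ (fun y => G (y, p)) x) 5)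
    (hS : ∀ p, ∀ x ∈ Z1 fun y => G (y, p), x.2 ∈ Ioo (0 : ℝ) 1 →
      ∀ w, ∃ (v : V) (q : P), fderiv ℝ G (x, p) (((0, v), 0), q) = w)
    {F₀ F₁ : E × V → W} (e0 : ∀ x p, G ((x, 0), p) = F₀ x) (e1 : ∀ x p, G ((x, 1), p) = F₁ x)
    (h0 : Rg F₀) (h1 : Rg F₁)
    (hc : ∀ p, ∀ x : ℕ → (E × V) × ℝ, (∀ n, x n ∈ Z1 fun y => G (y, p)) →
      (∀ n, (x n).2 ∈ Icc (0 : ℝ) 1) → (∀ n, ‖(x n).1.2‖ = 1) →
      ∃ (φ : ℕ → ℕ) (a : (E × V) × ℝ), StrictMono φ ∧ G (a, p) = 0 ∧ Tendsto (x ∘ φ) atTop (𝓝 a)) :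
    R.Fi F₀ ∧ R.Fi F₁ ∧ R.N F₀ ≡ R.N F₁ [MOD 2] := by
  have hO' : IsOpen {z : ((E × V) × ℝ) × P | z.1.1 ∈ O} := hO.preimage (by fun_prop)
  have hU : IsOpen {z : ((E × V) × ℝ) × P | z.1.1 ∈ O ∧ z.1.1.2 ≠ 0 ∧ z.1.2 ∈ Ioo (0 : ℝ) 1} :=
    hO'.inter ((isOpen_ne_fun (by fun_prop) continuous_const).inter
      (isOpen_Ioo.preimage (by fun_prop)))
  obtain ⟨p, hp⟩ := (dense_of_mem_residual (gen hU (hG.mono fun z hz => hz.1) fun z hz hu h =>
    ⟨(hF z.2 z.1 ⟨hu, hz.2.1, h⟩ (Ioo_subset_Icc_self hz.2.2)).1,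
      hS z.2 z.1 ⟨hu, hz.2.1, h⟩ hz.2.2⟩)).nonempty
  have := cob R (H := fun y => G (y, p)) (hi p) (fun x hx ht => ⟨?_, hF p x hx ht⟩)
    (fun x hx ht => hp x ⟨hsub _ hx.1 hx.2.1, hx.2.1, ht⟩ hx.1 hx.2.2)
    (by simpa only [e0] using h0) (by simpa only [e1] using h1) (hc p)
  · simpa only [e0, e1] using this
  · exact ((hG.contDiffAt (hO'.mem_nhds (x := (x, p)) (hsub _ hx.1 hx.2.1))).of_le
      (by simp)).comp x (by fun_prop)

end Crest.Agent.X212.Tor74
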