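import Crest.Agent.X212.Tor74.Ban

/-! Toric counts, part 5: the theorem for finitely many weight spaces, and odd binomials. -/

set_option autoImplicit false
set_option linter.unusedSectionVars false

noncomputable section

open Set Filter Topology Function Module
open scoped ContDiff InnerProductSpace

namespace Crest.Agent.X212.Tor74

open Slc61 Fred93

variable {E : Type} [NormedAddCommGroup E] [InnerProductSpace ℂ E] [NormedSpace ℝ E]
  [IsScalarTower ℝ ℂ E] [FiniteDimensional ℂ E] {ι : Type} [Fintype ι] {V W : ι → Type}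
  [∀ i, NormedAddCommGroup (V i)] [∀ i, NormedSpace ℂ (V i)] [∀ i, NormedSpace ℝ (V i)]
  [∀ i, IsScalarTower ℝ ℂ (V i)] [∀ i, NormedAddCommGroup (W i)] [∀ i, NormedSpace ℂ (W i)]
  [∀ i, NormedSpace ℝ (W i)] [∀ i, IsScalarTower ℝ ℂ (W i)]

/-- a diagonal operator -/
def dg (D : ∀ i, V i →L[ℂ] W i) : (∀ i, V i) →L[ℂ] ∀ i, W i :=
  .pi fun i => (D i).comp (.proj i)

@[simp] theorem dg_apply (D : ∀ i, V i →L[ℂ] W i) (v : ∀ i, V i) (i : ι) :
    dg D v i = D i (v i) := rfl

/-- combinations of homogeneous vectors -/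
def comb {J : ι → Type} [∀ i, Fintype (J i)] (y : ∀ i, J i → W i) :
    ((Σ i, J i) → ℂ) →L[ℂ] ∀ i, W i :=
  .pi fun i => ∑ j, (ContinuousLinearMap.proj (⟨i, j⟩ : Σ i, J i)).smulRight (y i j)

theorem comb_apply {J : ι → Type} [∀ i, Fintype (J i)] (y : ∀ i, J i → W i) (c : (Σ i, J i) → ℂ)
    (i : ι) : comb y c i = ∑ j, c ⟨i, j⟩ • y i j := by
  simp [comb]

theorem comb_eqv {J : ι → Type} [∀ i, Fintype (J i)] (y : ∀ i, J i → W i) (a : ι → ℤ) (α : Circle)
    (c : (Σ i, J i) → ℂ) :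
    comb y ((wr fun j : Σ i, J i => a j.1).ρ α c) = (wrep W a).ρ α (comb y c) := by
  funext i
  simp only [comb_apply, wrep_apply, Finset.smul_sum, smul_eq_mul, mul_smul]

variable [∀ i, CompleteSpace (V i)] [∀ i, CompleteSpace (W i)]
  [∀ i, SecondCountableTopology (V i)]

/-- **Toric count.** `T u = D + compact` is an equivariant family over the unit sphere of
`E ≅ ℂ^(m+1)`, the blocks `D i` have weight `a i` and index `n i`, `∑ n i = 1 - m`. If the zeros
`(u, v ≠ 0)` are regular, their number modulo `S¹ × ℂˣ` is `choose (-∑_{a i odd} n i) m` mod 2. -/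
theorem count {m : ℕ} (hm : finrank ℂ E = m + 1) (a : ι → ℤ) {D : ∀ i, V i →L[ℂ] W i} {n : ι → ℤ}
    (hD : ∀ i, Fr (D i) (n i)) (hn : ∑ i, n i = 1 - m)
    {O : Set E} (hO : IsOpen O) (hs : ∀ u, ‖u‖ = 1 → u ∈ O)
    {T : E → (∀ i, V i) →L[ℂ] ∀ i, W i} (hT : ContDiffOn ℝ ∞ T O)
    (he : ∀ (α : Circle) u v, ‖u‖ = 1 →
      T ((α : ℂ) • u) ((wrep V a).ρ α v) = (wrep W a).ρ α (T u v))
    (hK : ∀ u, ‖u‖ = 1 → IsCompactOperator (T u - dg D))
    (hr : Rg fun x : E × (∀ i, V i) => T x.1 x.2) :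
    (wrep V a).Fi (fun x : E × (∀ i, V i) => T x.1 x.2) ∧
      (((wrep V a).N (fun x : E × (∀ i, V i) => T x.1 x.2) : ℕ) : ZMod 2) =
        ((Ring.choose (-∑ i, a i % 2 * n i) m : ℤ) : ZMod 2) := by
  classical
  have := FiniteDimensional.complete ℂ E
  have := FiniteDimensional.proper ℂ E
  have : FiniteDimensional ℝ E := Module.Finite.trans ℂ E
  choose f1 Q f2 π B hQ hπ hB using fun i => exists_block (hD i).1
  have hi : ∀ i, (finrank ℂ (D i).ker : ℤ) - finrank ℂ (Q i) = n i := fun i =>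
    (Fr.of_block (B i) (hB i)).unique (hD i)
  let bK := fun i => finBasis ℂ (D i).ker
  let bQ := fun i => finBasis ℂ (Q i)
  let P : (∀ i, V i) →L[ℂ] (Σ i, Fin (finrank ℂ (D i).ker)) → ℂ := .pi fun j =>
    (LinearMap.toContinuousLinearMap ((bK j.1).coord j.2)).comp ((π j.1).comp (.proj j.1))
  have hP : ∀ v j, P v j = (bK j.1).repr (π j.1 (v j.1)) j.2 := fun _ _ => rfl
  have hK' : ∀ c i, comb (fun i j => (bK i j : V i)) c i =
      ((∑ j, c ⟨i, j⟩ • bK i j : (D i).ker) : V i) := fun c i => by simp [comb_apply]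
  have hQ' : ∀ c i, comb (fun i j => (bQ i j : W i)) c i =
      ((∑ j, c ⟨i, j⟩ • bQ i j : Q i) : W i) := fun c i => by simp [comb_apply]
  have key := count_abs (wrep V a) (wrep W a) (fun A => ?_) (fun v hv => ?_)
    (fun j => a j.1) (fun j => a j.1) (D := dg D) (π := P)
    (s := comb fun i j => (bK i j : V i)) (σ := comb fun i j => (bQ i j : W i))
    (fun c => funext fun j => ?_) (fun c => funext fun i => ?_) (fun v w h => ?_) (fun y => ?_)
    (fun α v => funext fun j => ?_) (comb_eqv _ a) (comb_eqv _ a) (fun α v => funext fun i => ?_)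
    hm ?_ hO hs hT he hK hr
  · refine ⟨key.1, key.2.trans ?_⟩
    congr 2
    simp only [Fintype.sum_sigma, Finset.sum_const, Finset.card_univ, Fintype.card_fin, nsmul_eq_mul,
      ← Finset.sum_sub_distrib, ← Finset.sum_neg_distrib, ← hi]
    exact Finset.sum_congr rfl fun i _ => by ring
  · refine ⟨Σ _ : ι, A, inferInstance, fun j => a j.1, comb fun i y => y.1 i, comb_eqv _ a,
      fun y hy => ⟨fun j => if j.2 = ⟨y, hy⟩ then 1 else 0, funext fun i => ?_⟩⟩
    simp [comb_apply]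
  · obtain ⟨i, hi⟩ := Function.ne_iff.1 hv
    obtain ⟨l, -, hl⟩ := exists_dual_vector ℂ (v i) (norm_ne_zero_iff.2 hi)
    refine ⟨(a i, l.comp (.proj i)), fun α v' => by simp [wrep_apply], ?_⟩
    change l (v i) ≠ 0
    rw [hl]
    exact Complex.ofReal_ne_zero.2 (norm_ne_zero_iff.2 hi)
  · rw [hP, hK', hπ, Basis.repr_sum_self]
  · rw [dg_apply, hK']
    exact (∑ j, c ⟨i, j⟩ • bK i j).2
  · have h1 : ∀ i, (∑ j, w ⟨i, j⟩ • bQ i j : Q i) = 0 ∧ D i (v i) = 0 := fun i => by
      have h2 : D i (v i) + _ = 0 := (congrArg _ (hQ' w i)).symm.trans (congrFun h i)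
      have h3 := (Submodule.disjoint_def.1 (hQ i).disjoint) _
        ⟨-v i, by rw [eq_neg_of_add_eq_zero_right h2]; exact map_neg _ _⟩
        (∑ j, w ⟨i, j⟩ • bQ i j : Q i).2
      exact ⟨Subtype.ext h3, by rwa [h3, add_zero] at h2⟩
    refine ⟨funext fun j => Fintype.linearIndependent_iff.1 (bQ j.1).linearIndependent _
      (h1 j.1).1 j.2, funext fun i => ?_⟩
    rw [hK']
    exact congrArg Subtype.val (((bK i).sum_repr _).trans (hπ i ⟨v i, (h1 i).2⟩))
  · have h1 : ∀ i, blk (D i) (π i) (Q i).subtypeL ((B i).symm (y i, 0)) = (y i, 0) := fun i => by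
      rw [← hB]; exact (B i).apply_symm_apply _
    refine ⟨fun i => ((B i).symm (y i, 0)).1, fun j => (bQ j.1).repr ((B j.1).symm (y j.1, 0)).2 j.2,
      funext fun i => ?_, funext fun j => ?_⟩
    · have h2 : (∑ j, (bQ i).repr ((B i).symm (y i, 0)).2 j • bQ i j) = ((B i).symm (y i, 0)).2 :=
        (bQ i).sum_repr _
      rw [Pi.add_apply, hQ']
      dsimp only
      rw [h2]
      exact congrArg Prod.fst (h1 i)
    · rw [hP, show π j.1 ((B j.1).symm (y j.1, 0)).1 = 0 from congrArg Prod.snd (h1 j.1)]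
      simp
  · simp [hP, wrep_apply]
  · simp [wrep_apply]
  · simp only [Fintype.card_sigma, Fintype.card_fin]
    simp only [← hi, Finset.sum_sub_distrib] at hn
    zify
    linarith

/-- `choose r m` mod 2 has period `2 ^ s > m` in `r` -/
theorem choose_period {m s : ℕ} (h : m < 2 ^ s) (r : ℤ) :
    ((Ring.choose (r + 2 ^ s) m : ℤ) : ZMod 2) = (Ring.choose r m : ℤ) := by
  rw [Ring.add_choose_eq m (Commute.all _ _), Int.cast_sum,
    Finset.sum_eq_single (m, 0) (fun ij hij hne => ?_) (by simp)]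
  · simp
  · have h1 := Finset.HasAntidiagonal.mem_antidiagonal.1 hij
    have h2 : ij.2 ≠ 0 := fun h0 => hne (Prod.ext (by simpa [h0] using h1) h0)
    have h3 := Nat.prime_two.dvd_choose_pow (n := s) h2 (by omega)
    rw [show (2 : ℤ) ^ s = ((2 ^ s : ℕ) : ℤ) by simp, Ring.choose_natCast, Int.cast_mul,
      Int.cast_natCast, (ZMod.natCast_eq_zero_iff _ _).2 h3, mul_zero]

theorem choose_neg_one (m : ℕ) : ((Ring.choose (-1 : ℤ) m : ℤ) : ZMod 2) = 1 := by
  induction m with
  | zero => simp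
  | succ m ih =>
    have := cf_succ (m + 1) (-1)
    simp only [cf, neg_add_cancel, Ring.choose_zero_succ, Int.cast_zero, ih] at this
    rw [eq_neg_of_add_eq_zero_left this.symm]
    rfl

/-- odd binomial coefficients -/
theorem choose_odd {m s : ℕ} (h : m < 2 ^ s) {r : ℤ} (hr : (2 : ℤ) ^ s ∣ r + 1) :
    ((Ring.choose r m : ℤ) : ZMod 2) = 1 := by
  obtain ⟨c, hc⟩ := hr
  rw [show r = -1 + 2 ^ s * c by linarith]
  clear hc
  induction c using Int.induction_on with
  | zero => simpa using choose_neg_one m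
  | succ n ih => rw [mul_add, mul_one, ← add_assoc, choose_period h, ih]
  | pred n ih => rw [← choose_period h, ← ih]; congr 2; ring

end Crest.Agent.X212.Tor74
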